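import Vale.Agent.P260.H795.Final
import Vale.Agent.P260.H145.MainA
import Vale.Agent.P260.H662.C2

/-!
# P260: amenable, virtually residually-`q` Poincare duality groups of dimension 4 over `𝔽_q` are
virtually solvable
-/

namespace Vale.Agent.P260.H795

open Subgroup

/-- Residually-`q` passes to smaller subgroups. -/
theorem resQ_mono {G : Type} [Group G] {q : ℕ} (hq : q.Prime) {K H : Subgroup G} (hKH : K ≤ H)
    (h : ResQ q H) : ResQ q K := by
  intro g hg
  obtain ⟨N, hN, hgN, n, hn⟩ := h (inclusion hKH g) (by
    intro h1
    exact hg (inclusion_injective hKH (by rw [h1, map_one])))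
  refine ⟨N.comap (inclusion hKH), inferInstance, hgN, ?_⟩
  have h1 : (N.comap (inclusion hKH)).index ∣ q ^ n := by
    rw [index_comap, ← hn]
    exact relIndex_dvd_index_of_normal _ _
  obtain ⟨k, -, hk⟩ := (Nat.dvd_prime_pow hq).1 h1
  exact ⟨k, hk⟩

/-- Virtual solvability passes from a finite-index subgroup to the group. -/
theorem vsolv_of_subgroup {G : Type} [Group G] {K : Subgroup G} (hK : K.FiniteIndex)
    (h : VSolv K) : VSolv G := by
  obtain ⟨L, hL, hs⟩ := h
  refine ⟨L.map K.subtype, ?_, ?_⟩
  · constructor
    rw [index_map_subtype]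
    exact mul_ne_zero hL.index_ne_zero hK.index_ne_zero
  · let e : L ≃* L.map K.subtype := L.equivMapOfInjective K.subtype K.subtype_injective
    exact Group.isSolvable_of_surjective (f := e.toMonoidHom) e.surjective

/-- The number of independent homomorphisms is bounded by the dimension of the space of
homomorphisms. -/
theorem le_finrank_hom {H : Type} [Group H] (hfg : Group.FG H) {q : ℕ} [Fact q.Prime] {n : ℕ}
    (f : H →* Multiplicative (Fin n → ZMod q)) (hf : Function.Surjective f) :
    n ≤ Module.finrank (ZMod q) (Additive H →+ ZMod q) := by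
  classical
  have := H145.finiteDimensional_hom (ZMod q) H hfg
  let φ : (Fin n → ZMod q) →ₗ[ZMod q] (Additive H →+ ZMod q) :=
    { toFun := fun c =>
        { toFun := fun x => ∑ i, c i * Multiplicative.toAdd (f (Additive.toMul x)) i
          map_zero' := by simp
          map_add' := fun x y => by
            rw [← Finset.sum_add_distrib]
            refine Finset.sum_congr rfl fun i _ => ?_
            rw [toMul_add, map_mul, toAdd_mul, Pi.add_apply, mul_add] }
      map_add' := fun c c' => by
        ext x
        change ∑ i, (c i + c' i) * _ = (∑ i, c i * _) + ∑ i, c' i * _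
        rw [← Finset.sum_add_distrib]
        exact Finset.sum_congr rfl fun i _ => add_mul _ _ _
      map_smul' := fun r c => by
        ext x
        change ∑ i, (r * c i) * _ = r * ∑ i, c i * _
        rw [Finset.mul_sum]
        exact Finset.sum_congr rfl fun i _ => mul_assoc _ _ _ }
  have hφ : Function.Injective φ := by
    rw [injective_iff_map_eq_zero]
    intro c hc
    funext i
    obtain ⟨x, hx⟩ := hf (Multiplicative.ofAdd (Pi.single i 1))
    have h1 := DFunLike.congr_fun hc (Additive.ofMul x)
    change ∑ j, c j * Multiplicative.toAdd (f x) j = 0 at h1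
    rw [hx, toAdd_ofAdd, Finset.sum_eq_single i] at h1
    · rw [Pi.single_eq_same, mul_one] at h1
      exact h1
    · intro j _ hj
      rw [Pi.single_eq_of_ne hj, mul_zero]
    · intro h
      exact absurd (Finset.mem_univ _) h
  have h1 := LinearMap.finrank_le_finrank_of_injective hφ
  rwa [Module.finrank_fin_fun] at h1

/-- **Main theorem.**  Let `G` be a Poincare duality group of formal dimension 4 and type FF over
`𝔽_q`.  If `G` is amenable and virtually residually a finite `q`-group, then `G` is virtually
solvable. -/
theorem main (q : ℕ) [hq : Fact q.Prime] (G : Type) [Group G] (P : H145.PD4 (ZMod q) G)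
    (hF : Folner G) (hV : VResQ q G) : VSolv G := by
  obtain ⟨N, -, hNf, hb⟩ := H145.bound_of_C2 H662.c2 q G P hF
  obtain ⟨H₀, hH₀, hres⟩ := hV
  have hGfg : Group.FG G := P.fg
  have hK : (N ⊓ H₀).FiniteIndex := inferInstance
  refine vsolv_of_subgroup hK ?_
  have hKfg : Group.FG (N ⊓ H₀ : Subgroup G) := inferInstance
  refine blockE q (N ⊓ H₀ : Subgroup G) hKfg (H145.folner_sub hF _)
    (resQ_mono hq.out inf_le_right hres) 4000 ?_
  intro H hH n f hf
  let H' : Subgroup G := H.map (N ⊓ H₀).subtype
  let e : H ≃* H' := H.equivMapOfInjective _ (N ⊓ H₀).subtype_injective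
  have hH' : H'.FiniteIndex := by
    constructor
    rw [index_map_subtype]
    exact mul_ne_zero hH.index_ne_zero hK.index_ne_zero
  have hH'N : H' ≤ N := (map_subtype_le H).trans inf_le_left
  have hfg' : Group.FG H' := inferInstance
  have h1 := hb H' hH' hH'N
  have h2 := le_finrank_hom (q := q) hfg' (f.comp e.symm.toMonoidHom)
    (hf.comp e.symm.surjective)
  omega

end Vale.Agent.P260.H795
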