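import Vale.Agent.P260.H795.Final
import Vale.Agent.P260.H145.RFDefs

/-!
# P260, X1: the representation attached to a normal subgroup of finite index and a prime
-/

namespace Vale.Agent.P260.H795

open Subgroup
open scoped commutatorElement

/-- The series is characteristic. -/
theorem map_PS {G : Type*} [Group G] (q : ℕ) (e : G ≃* G) (n : ℕ) :
    (PS q G n).map e.toMonoidHom = PS q G n := by
  induction n with
  | zero =>
    rw [PS_zero]
    exact Subgroup.map_top_of_surjective _ e.surjective
  | succ n ih => rw [PS_succ, map_Phi, ih]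

/-- The series of a normal subgroup consists of normal subgroups. -/
theorem PS_map_normal {G : Type*} [Group G] (q : ℕ) (N : Subgroup G) [hN : N.Normal] (n : ℕ) :
    ((PS q N n).map N.subtype).Normal := by
  constructor
  rintro _ ⟨x, hx, rfl⟩ g
  have h1 : (MulAut.conjNormal g : MulAut N) x ∈ PS q N n := by
    have h2 := map_PS q (MulAut.conjNormal g : MulAut N) n
    rw [← h2]
    exact mem_map_of_mem _ hx
  refine ⟨_, h1, ?_⟩
  rw [Subgroup.coe_subtype, MulAut.conjNormal_apply]

/-- **X1.** -/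
theorem rep_exists_rel (p : ℕ) [hp : Fact p.Prime] (G : Type) [Group G] (hfg : Group.FG G)
    (N : Subgroup G) [hN : N.Normal] [hNf : N.FiniteIndex] (C : ℕ)
    (hC : ∀ H : Subgroup G, H.FiniteIndex → H ≤ N → ∀ (n : ℕ)
      (f : H →* Multiplicative (Fin n → ZMod p)), Function.Surjective f → n ≤ C) :
    ∃ (d : ℕ) (R : G →* Matrix (Fin d) (Fin d) ℤ_[p]) (V : Subgroup G), d ≤ C ∧
      V.FiniteIndex ∧ ∀ g, R g = 1 → ∀ v ∈ V, ⁅g, v⁆ ∈ H145.Rp p N := by
  have hNfg : Group.FG N := inferInstance
  have hCN : ∀ H : Subgroup N, H.FiniteIndex → ∀ (n : ℕ)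
      (f : H →* Multiplicative (Fin n → ZMod p)), Function.Surjective f → n ≤ C := by
    intro H hH n f hf
    let e : H ≃* H.map N.subtype := H.equivMapOfInjective _ N.subtype_injective
    refine hC (H.map N.subtype) ?_ (map_subtype_le H) n (f.comp e.symm.toMonoidHom)
      (hf.comp e.symm.surjective)
    constructor
    rw [index_map_subtype]
    exact mul_ne_zero hH.index_ne_zero hNf.index_ne_zero
  obtain ⟨n0, d, hd, h1, h2, h3, h4, h5, h6, h7, h8, h9⟩ := chain_exists' p N hNfg C hCN
  set P : ℕ → Subgroup G := fun i => (PS p N (n0 + i)).map N.subtype with hP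
  have hmem : ∀ i (x : G) (hx : x ∈ N), x ∈ P i ↔ (⟨x, hx⟩ : N) ∈ PS p N (n0 + i) := by
    intro i x hx
    constructor
    · rintro ⟨y, hy, hyx⟩
      have : y = ⟨x, hx⟩ := Subtype.ext hyx
      rw [← this]
      exact hy
    · exact fun h => ⟨_, h, rfl⟩
  have hPN : ∀ i, P i ≤ N := fun i => map_subtype_le _
  have hch : UCh p G P d :=
    { normal := fun i => PS_map_normal p N _
      le := fun i => map_mono (h3 i)
      comm := fun i j => by
        rw [commutator_le]
        intro x hx y hy
        rw [hmem _ _ (hPN i hx)] at hx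
        rw [hmem _ _ (hPN j hy)] at hy
        exact ⟨_, h4 i j (commutator_mem_commutator hx hy), rfl⟩
      pow := fun i x hx => by
        rw [hmem _ _ (hPN i hx)] at hx
        exact ⟨_, h5 i _ hx, rfl⟩
      inj := fun i x hx hxp => by
        have hxN := hPN i hx
        rw [hmem _ _ hxN] at hx ⊢
        rw [hmem _ _ (N.pow_mem hxN p)] at hxp
        exact h6 i _ hx hxp
      surj := fun i y hy => by
        rw [hmem _ _ (hPN _ hy)] at hy
        obtain ⟨x, hx, hxy⟩ := h7 i _ hy
        exact ⟨x, ⟨x, hx, rfl⟩, ⟨_, hxy, rfl⟩⟩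
      rel := fun i => by
        rw [← h8 i]
        exact relIndex_map_map_of_injective _ _ N.subtype_injective }
  obtain ⟨R, hR⟩ := hch.exists_rep
  refine ⟨d, R, P 0, hd, ?_, ?_⟩
  · constructor
    rw [hP, index_map_subtype]
    refine mul_ne_zero ?_ hNf.index_ne_zero
    obtain ⟨a, ha⟩ := h2 0
    rw [ha]
    exact (pow_pos hp.out.pos a).ne'
  · intro g hg v hv
    refine mem_sInf.2 ?_
    rintro K ⟨hK, hKN, a, ha⟩
    have hKn : (K.subgroupOf N).Normal := inferInstance
    obtain ⟨i, hi⟩ := h9 (K.subgroupOf N) hKn ⟨a, ha⟩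
    have h10 : P i ≤ K := by
      rintro _ ⟨y, hy, rfl⟩
      exact hi hy
    exact h10 (hR g hg v hv i)

end Vale.Agent.P260.H795
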