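import Vale.Agent.P260.H795.Rank

/-!
# P260, block E, part 1: the uniform chain
-/

namespace Vale.Agent.P260.H795

open Subgroup
open scoped commutatorElement

section
variable {G : Type*} [Group G]

theorem card_map_mk {M E : Subgroup G} [hM : M.Normal] :
    Nat.card (E.map (QuotientGroup.mk' M)) = M.relIndex E := by
  have h1 : ((QuotientGroup.mk' M).comp E.subtype).range = E.map (QuotientGroup.mk' M) := by
    rw [MonoidHom.range_comp, range_subtype]
  have h2 : ((QuotientGroup.mk' M).comp E.subtype).ker = M.subgroupOf E := by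
    rw [← MonoidHom.comap_ker, QuotientGroup.ker_mk']
    rfl
  rw [← h1, ← index_ker, h2]
  rfl

end

variable {G : Type} [Group G]

theorem comm_one {q : ℕ} [hq : Fact q.Prime] (hfg : Group.FG G) {C : ℕ} (hC : RankLE q G C)
    (i : ℕ) (hi : 1 ≤ i) : ∀ x ∈ PS q G (bd q C + i), ∀ w ∈ PS q G (bd q C + 1),
      ⁅x, w⁆ ∈ PS q G (bd q C + (i + 2)) := by
  obtain ⟨a, ha⟩ := PS_index hfg hC (bd q C + (i + 2))
  refine main_lemma hfg hC (PS_antitone q (by omega)) a _ ha (PS_antitone q (by omega)) ?_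
  intro x hx
  rw [pow_mul]
  exact pow_mem_Phi q (pow_mem_Phi q hx)

theorem comm_gen {q : ℕ} [hq : Fact q.Prime] (hfg : Group.FG G) {C : ℕ} (hC : RankLE q G C)
    (j : ℕ) : ∀ i, 1 ≤ i → ∀ x ∈ PS q G (bd q C + i), ∀ y ∈ PS q G (bd q C + (j + 1)),
      ⁅x, y⁆ ∈ PS q G (bd q C + (i + j + 2)) := by
  induction j with
  | zero =>
    intro i hi x hx y hy
    exact comm_one hfg hC i hi x hx y hy
  | succ j ih =>
    intro i hi x hx y hy
    set V := PS q G (bd q C + (j + 1)) with hV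
    set M := PS q G (bd q C + (i + (j + 1) + 2)) with hMdef
    have hMPhi : M = Phi q (PS q G (bd q C + (i + j + 2))) := by
      rw [hMdef, ← PS_succ]
      congr 1
    set π := QuotientGroup.mk' M with hπ
    have hker : ∀ x : G, π x = 1 ↔ x ∈ M := fun x => QuotientGroup.eq_one_iff x
    have hval : ∀ v ∈ V, ⁅x, v⁆ ∈ PS q G (bd q C + (i + j + 2)) := fun v hv => ih i hi x hx v hv
    have hconj : ∀ v ∈ V, ∀ c ∈ PS q G (bd q C + (i + j + 2)), π (v * c * v⁻¹) = π c := by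
      intro v hv c hc
      have h1 : ⁅c, v⁆ ∈ M := by
        have := ih (i + j + 2) (by omega) c hc v hv
        exact PS_antitone q (by omega) this
      have h3 := (hker _).2 h1
      rw [map_commutatorElement, commutatorElement_eq_one_iff_mul_comm] at h3
      rw [map_mul, map_mul, map_inv, ← h3, mul_inv_cancel_right]
    let f : V →* G ⧸ M :=
      { toFun := fun v => π ⁅x, (v : G)⁆
        map_one' := by simp
        map_mul' := by
          rintro ⟨v, hv⟩ ⟨w, hw⟩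
          change π ⁅x, v * w⁆ = π ⁅x, v⁆ * π ⁅x, w⁆
          have h1 : ⁅x, v * w⁆ = ⁅x, v⁆ * (v * ⁅x, w⁆ * v⁻¹) := by
            simp only [commutatorElement_def]; group
          rw [h1, map_mul, hconj v hv _ (hval w hw)] }
    have hfE : ∀ v : V, ∃ e ∈ PS q G (bd q C + (i + j + 2)), f v = π e :=
      fun v => ⟨_, hval v v.2, rfl⟩
    have hy' : y ∈ Phi q V := hy
    have h := hom_Phi f (q := q) (by
        intro v w
        obtain ⟨e1, h1, h1'⟩ := hfE v
        obtain ⟨e2, h2, h2'⟩ := hfE w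
        rw [h1', h2', ← commutatorElement_eq_one_iff_commute, ← map_commutatorElement, hker, hMPhi]
        exact commutator_le_Phi q _ (commutator_mem_commutator h1 h2)) (by
        intro v
        obtain ⟨e1, h1, h1'⟩ := hfE v
        rw [h1', ← map_pow, hker, hMPhi]
        exact pow_mem_Phi q h1) hy'
    exact (hker _).1 h

/-- For `n > bd q C` the commutator of the `n`-th term lies two steps deeper. -/
theorem comm_two {q : ℕ} [hq : Fact q.Prime] (hfg : Group.FG G) {C : ℕ} (hC : RankLE q G C)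
    {n : ℕ} (hn : bd q C + 1 ≤ n) : ∀ x ∈ PS q G n, ∀ y ∈ PS q G n, ⁅x, y⁆ ∈ PS q G (n + 2) := by
  obtain ⟨k, rfl⟩ := Nat.exists_eq_add_of_le hn
  intro x hx y hy
  have hx' : x ∈ PS q G (bd q C + (k + 1)) := by
    have : bd q C + 1 + k = bd q C + (k + 1) := by omega
    rwa [this] at hx
  have hy' : y ∈ PS q G (bd q C + (k + 1)) := by
    have : bd q C + 1 + k = bd q C + (k + 1) := by omega
    rwa [this] at hy
  exact PS_antitone q (by omega) (comm_gen hfg hC k (k + 1) (by omega) x hx' y hy')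

/-- The power map between consecutive sections. -/
theorem pow_section {q : ℕ} [hq : Fact q.Prime] (hfg : Group.FG G) {C : ℕ} (hC : RankLE q G C)
    {n : ℕ} (hn : bd q C + 1 ≤ n) :
    (∀ y ∈ PS q G (n + 1), ∃ x ∈ PS q G n, x ^ q * y⁻¹ ∈ PS q G (n + 2)) ∧
    ((PS q G (n + 2)).relIndex (PS q G (n + 1)) ≤ (PS q G (n + 1)).relIndex (PS q G n)) ∧
    ((PS q G (n + 2)).relIndex (PS q G (n + 1)) = (PS q G (n + 1)).relIndex (PS q G n) →
      ∀ x ∈ PS q G n, x ^ q ∈ PS q G (n + 2) → x ∈ PS q G (n + 1)) := by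
  set M := PS q G (n + 2) with hM
  set π := QuotientGroup.mk' M with hπ
  have hker : ∀ x : G, π x = 1 ↔ x ∈ M := fun x => QuotientGroup.eq_one_iff x
  have hcomm : ∀ x ∈ PS q G n, ∀ y ∈ PS q G n, Commute (π x) (π y) := by
    intro x hx y hy
    rw [← commutatorElement_eq_one_iff_commute, ← map_commutatorElement, hker]
    exact comm_two hfg hC hn x hx y hy
  let φ : PS q G n →* G ⧸ M :=
    { toFun := fun v => π (v : G) ^ q
      map_one' := by simp
      map_mul' := by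
        rintro ⟨v, hv⟩ ⟨w, hw⟩
        change π (v * w) ^ q = π v ^ q * π w ^ q
        rw [map_mul, (hcomm v hv w hw).mul_pow] }
  have hφ : ∀ (v : G) (hv : v ∈ PS q G n), φ ⟨v, hv⟩ = π (v ^ q) := fun v hv => by
    rw [map_pow]; rfl
  have hrange : φ.range = (PS q G (n + 1)).map π := by
    apply le_antisymm
    · rintro _ ⟨⟨v, hv⟩, rfl⟩
      rw [hφ]
      exact mem_map_of_mem π (pow_mem_Phi q hv)
    · rw [map_le_iff_le_comap, PS_succ, Phi_le_iff]
      refine ⟨fun x hx y hy => ?_, fun x hx => ?_⟩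
      · rw [mem_comap, (hker _).2 (comm_two hfg hC hn x hx y hy)]
        exact one_mem _
      · rw [mem_comap]
        exact ⟨⟨x, hx⟩, hφ x hx⟩
  have hcard : φ.ker.index = M.relIndex (PS q G (n + 1)) := by
    rw [index_ker, hrange, card_map_mk]
  have hle : (PS q G (n + 1)).subgroupOf (PS q G n) ≤ φ.ker := by
    rintro ⟨x, hx⟩ hx1
    rw [MonoidHom.mem_ker, hφ, hker]
    exact pow_mem_Phi q (mem_subgroupOf.1 hx1)
  have hmul : ((PS q G (n + 1)).subgroupOf (PS q G n)).relIndex φ.ker * φ.ker.index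
      = (PS q G (n + 1)).relIndex (PS q G n) := relIndex_mul_index hle
  have hpos : (PS q G (n + 1)).relIndex (PS q G n) ≠ 0 := by
    obtain ⟨a, ha⟩ := PS_index hfg hC (n + 1)
    have h1 := relIndex_mul_index (PS_antitone q (Nat.le_succ n) : PS q G (n + 1) ≤ PS q G n)
    intro h0
    change (PS q G (n + 1)).relIndex (PS q G n) * (PS q G n).index = (PS q G (n + 1)).index at h1
    rw [h0, zero_mul, ha] at h1
    exact (pow_pos hq.out.pos a).ne h1
  refine ⟨?_, ?_, ?_⟩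
  · intro y hy
    have h1 : π y ∈ φ.range := hrange ▸ mem_map_of_mem π hy
    obtain ⟨⟨x, hx⟩, hxy⟩ := h1
    rw [hφ] at hxy
    refine ⟨x, hx, ?_⟩
    rw [← hker, map_mul, map_inv, hxy, mul_inv_cancel]
  · rw [← hcard]
    exact Nat.le_of_dvd (Nat.pos_of_ne_zero hpos) ⟨_, by rw [mul_comm]; exact hmul.symm⟩
  · intro heq x hx hxq
    rw [hcard, heq] at hmul
    have h1 : ((PS q G (n + 1)).subgroupOf (PS q G n)).relIndex φ.ker = 1 := by
      apply Nat.eq_of_mul_eq_mul_right (Nat.pos_of_ne_zero hpos)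
      rw [hmul, one_mul]
    rw [relIndex_eq_one] at h1
    have h2 : (⟨x, hx⟩ : PS q G n) ∈ φ.ker := by
      rw [MonoidHom.mem_ker, hφ, hker]
      exact hxq
    exact mem_subgroupOf.1 (h1 h2)

/-- **Block E, part 1**: the uniform chain (a final segment of the series `PS`). -/
theorem chain_exists' (q : ℕ) [hq : Fact q.Prime] (G : Type) [Group G] (hfg : Group.FG G) (C : ℕ)
    (hC : ∀ H : Subgroup G, H.FiniteIndex → ∀ (n : ℕ) (f : H →* Multiplicative (Fin n → ZMod q)),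
      Function.Surjective f → n ≤ C) :
    ∃ (n0 d : ℕ), d ≤ C ∧ (∀ i, (PS q G (n0 + i)).Normal) ∧
      (∀ i, ∃ a, (PS q G (n0 + i)).index = q ^ a) ∧
      (∀ i, PS q G (n0 + (i+1)) ≤ PS q G (n0 + i)) ∧
      (∀ i j, ⁅PS q G (n0 + i), PS q G (n0 + j)⁆ ≤ PS q G (n0 + (i + j + 2))) ∧
      (∀ i, ∀ x ∈ PS q G (n0 + i), x ^ q ∈ PS q G (n0 + (i+1))) ∧
      (∀ i, ∀ x ∈ PS q G (n0 + i), x ^ q ∈ PS q G (n0 + (i+2)) → x ∈ PS q G (n0 + (i+1))) ∧
      (∀ i, ∀ y ∈ PS q G (n0 + (i+1)), ∃ x ∈ PS q G (n0 + i),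
        x ^ q * y⁻¹ ∈ PS q G (n0 + (i+2))) ∧
      (∀ i, (PS q G (n0 + (i+1))).relIndex (PS q G (n0 + i)) = q ^ d) ∧
      (∀ N : Subgroup G, N.Normal → (∃ a, N.index = q ^ a) → ∃ i, PS q G (n0 + i) ≤ N) := by
  have hC' : RankLE q G C := hC
  -- the orders of the sections
  have hr : ∀ n, ∃ r ≤ C, (PS q G (n + 1)).relIndex (PS q G n) = q ^ r := by
    intro n
    obtain ⟨a, ha⟩ := PS_index hfg hC' n
    have h0 : (PS q G n).index ≠ 0 := by rw [ha]; exact (pow_pos hq.out.pos a).ne'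
    obtain ⟨r, hrC, hr⟩ := relIndex_elem (q := q) hfg hC' (M := PS q G (n + 1)) (E := PS q G n) h0
      (fun x hx y hy => commutator_le_Phi q _ (commutator_mem_commutator hx hy))
      (fun x hx => pow_mem_Phi q hx)
    exact ⟨r, hrC, hr⟩
  choose r hrC hr using hr
  have hanti : ∀ n, bd q C + 1 ≤ n → r (n + 1) ≤ r n := by
    intro n hn
    have h1 := (pow_section hfg hC' hn).2.1
    rw [hr, hr] at h1
    exact (Nat.pow_le_pow_iff_right hq.out.one_lt).1 h1
  -- stabilisation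
  obtain ⟨n0, hn0, hmin⟩ : ∃ n0, bd q C + 1 ≤ n0 ∧ ∀ n, bd q C + 1 ≤ n → r n0 ≤ r n := by
    classical
    have hex : ∃ v, ∃ n, bd q C + 1 ≤ n ∧ r n = v := ⟨_, bd q C + 1, le_rfl, rfl⟩
    obtain ⟨n0, hn0, hv⟩ := Nat.find_spec hex
    refine ⟨n0, hn0, fun n hn => ?_⟩
    rw [hv]
    exact Nat.find_min' hex ⟨n, hn, rfl⟩
  have hconst : ∀ k, r (n0 + k) = r n0 := by
    intro k
    induction k with
    | zero => rfl
    | succ k ih =>
      have h1 := hanti (n0 + k) (by omega)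
      have h2 := hmin (n0 + (k + 1)) (by omega)
      have h3 : n0 + (k + 1) = n0 + k + 1 := by omega
      rw [h3] at h2 ⊢
      omega
  refine ⟨n0, r n0, hrC n0, fun i => PS_normal q _, fun i => PS_index hfg hC' _,
    fun i => PS_antitone q (by omega), ?_, fun i x hx => pow_mem_Phi q hx, ?_, ?_, ?_, ?_⟩
  · intro i j
    rw [commutator_le]
    intro x hx y hy
    obtain ⟨k, hk⟩ := Nat.exists_eq_add_of_le hn0
    have hx' : x ∈ PS q G (bd q C + (k + i + 1)) := by
      have : n0 + i = bd q C + (k + i + 1) := by omega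
      rw [← this]
      exact hx
    have hy' : y ∈ PS q G (bd q C + (k + j + 1)) := by
      have : n0 + j = bd q C + (k + j + 1) := by omega
      rw [← this]
      exact hy
    exact PS_antitone q (by omega) (comm_gen hfg hC' (k + j) (k + i + 1) (by omega) x hx' y hy')
  · intro i x hx hxq
    have h1 := (pow_section hfg hC' (n := n0 + i) (by omega)).2.2
    have h2 : r (n0 + i + 1) = r (n0 + i) := by
      rw [hconst i, show n0 + i + 1 = n0 + (i + 1) by omega, hconst (i + 1)]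
    rw [hr, hr, h2] at h1
    exact h1 rfl x hx hxq
  · intro i y hy
    exact (pow_section hfg hC' (n := n0 + i) (by omega)).1 y hy
  · intro i
    have h1 := hr (n0 + i)
    rw [hconst i] at h1
    exact h1
  · rintro N hN ⟨a, ha⟩
    refine ⟨a, ?_⟩
    have h1 : PS q G a ≤ N := PS_le_of_index a N ha
    exact (PS_antitone q (by omega)).trans h1

/-- **Block E, part 1**: the uniform chain. -/
theorem chain_exists (q : ℕ) [hq : Fact q.Prime] (G : Type) [Group G] (hfg : Group.FG G) (C : ℕ)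
    (hC : ∀ H : Subgroup G, H.FiniteIndex → ∀ (n : ℕ) (f : H →* Multiplicative (Fin n → ZMod q)),
      Function.Surjective f → n ≤ C) :
    ∃ (P : ℕ → Subgroup G) (d : ℕ), (∀ i, (P i).Normal) ∧ (∀ i, ∃ a, (P i).index = q ^ a) ∧
      (∀ i, P (i+1) ≤ P i) ∧ (∀ i j, ⁅P i, P j⁆ ≤ P (i + j + 2)) ∧
      (∀ i, ∀ x ∈ P i, x ^ q ∈ P (i+1)) ∧ (∀ i, ∀ x ∈ P i, x ^ q ∈ P (i+2) → x ∈ P (i+1)) ∧
      (∀ i, ∀ y ∈ P (i+1), ∃ x ∈ P i, x ^ q * y⁻¹ ∈ P (i+2)) ∧
      (∀ i, (P (i+1)).relIndex (P i) = q ^ d) ∧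
      (∀ N : Subgroup G, N.Normal → (∃ a, N.index = q ^ a) → ∃ i, P i ≤ N) := by
  obtain ⟨n0, d, -, h⟩ := chain_exists' q G hfg C hC
  exact ⟨fun i => PS q G (n0 + i), d, h⟩

end Vale.Agent.P260.H795
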