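import Mathlib

/-!
# P260, block E, part 2: the limit representation over the `q`-adic integers
-/

namespace Vale.Agent.P260.H795

open Filter Topology

variable {q : ℕ} [hq : Fact q.Prime]

theorem exists_ulim (f : ℕ → ℤ_[q]) : ∃ x, Tendsto f (hyperfilter ℕ : Filter ℕ) (𝓝 x) :=
  ⟨(Ultrafilter.map f (hyperfilter ℕ)).lim, Ultrafilter.le_nhds_lim _⟩

theorem hyper_le_atTop : (hyperfilter ℕ : Filter ℕ) ≤ atTop := Nat.hyperfilter_le_atTop

/-- The natural number lift. -/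
noncomputable def lft {m : ℕ} (z : ZMod (q ^ (m + 1))) : ℤ_[q] := ((z.val : ℤ) : ℤ_[q])

theorem tendsto_zero_of_dvd (u : ℕ → ℤ) (hu : ∀ m, ((q : ℤ) ^ (m + 1)) ∣ u m) :
    Tendsto (fun m => ((u m : ℤ) : ℤ_[q])) (hyperfilter ℕ : Filter ℕ) (𝓝 0) := by
  refine Tendsto.mono_left ?_ hyper_le_atTop
  rw [tendsto_zero_iff_norm_tendsto_zero]
  have h1 : ∀ m, ‖((u m : ℤ) : ℤ_[q])‖ ≤ ((q : ℝ)⁻¹) ^ (m + 1) := by
    intro m
    have h2 := (PadicInt.norm_int_le_pow_iff_dvd (p := q) (k := u m) (n := m + 1)).2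
      (by exact_mod_cast hu m)
    refine h2.trans (le_of_eq ?_)
    rw [zpow_neg, zpow_natCast, inv_pow]
  have hlt : ((q : ℝ)⁻¹) < 1 := inv_lt_one_of_one_lt₀ (by exact_mod_cast hq.out.one_lt)
  have h0 : 0 ≤ ((q : ℝ)⁻¹) := by positivity
  refine squeeze_zero (fun m => norm_nonneg _) h1 ?_
  exact (tendsto_pow_atTop_nhds_zero_of_lt_one h0 hlt).comp (tendsto_add_atTop_nat 1)

/-- **The limit representation.** -/
theorem limit_rep {G : Type*} [Group G] {d : ℕ}
    (ρ : ∀ m : ℕ, G →* Matrix (Fin d) (Fin d) (ZMod (q ^ (m + 1)))) :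
    ∃ R : G →* Matrix (Fin d) (Fin d) ℤ_[q], ∀ g, R g = 1 → ∀ j : ℕ, ∃ m, j ≤ m ∧
      ∀ i k, ∃ b, ρ m g i k = (1 : Matrix (Fin d) (Fin d) (ZMod (q ^ (m + 1)))) i k
        + (q : ZMod (q ^ (m + 1))) ^ j * b := by
  classical
  have hlim : ∀ g i k, ∃ x, Tendsto (fun m => lft (ρ m g i k)) (hyperfilter ℕ : Filter ℕ)
      (𝓝 x) := fun g i k => exists_ulim _
  choose R0 hR0 using hlim
  have hone : ∀ i k, R0 1 i k = (1 : Matrix (Fin d) (Fin d) ℤ_[q]) i k := by
    intro i k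
    refine tendsto_nhds_unique (hR0 1 i k) ?_
    have : ∀ m, lft (ρ m 1 i k) = (1 : Matrix (Fin d) (Fin d) ℤ_[q]) i k := by
      intro m
      rw [map_one]
      rcases eq_or_ne i k with h | h
      · subst h
        have : Fact (1 < q ^ (m + 1)) := ⟨Nat.one_lt_pow (Nat.succ_ne_zero m) hq.out.one_lt⟩
        simp [lft, ZMod.val_one]
      · simp [lft, h]
    simp_rw [this]
    exact tendsto_const_nhds
  have hmul : ∀ g h i k, R0 (g * h) i k = ∑ l, R0 g i l * R0 h l k := by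
    intro g h i k
    have h1 : Tendsto (fun m => ∑ l, lft (ρ m g i l) * lft (ρ m h l k))
        (hyperfilter ℕ : Filter ℕ) (𝓝 (∑ l, R0 g i l * R0 h l k)) :=
      tendsto_finsetSum _ fun l _ => (hR0 g i l).mul (hR0 h l k)
    let u : ℕ → ℤ := fun m => ((ρ m (g * h) i k).val : ℤ)
      - ∑ l, ((ρ m g i l).val : ℤ) * ((ρ m h l k).val : ℤ)
    have hu : ∀ m, ((q : ℤ) ^ (m + 1)) ∣ u m := by
      intro m
      have : NeZero (q ^ (m + 1)) := ⟨(pow_pos hq.out.pos _).ne'⟩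
      have h2 : ((u m : ℤ) : ZMod (q ^ (m + 1))) = 0 := by
        simp only [u]
        push_cast
        simp only [ZMod.natCast_val, ZMod.cast_id', id_eq]
        rw [map_mul, Matrix.mul_apply, sub_self]
      have h3 := (ZMod.intCast_zmod_eq_zero_iff_dvd (u m) (q ^ (m + 1))).1 h2
      exact_mod_cast h3
    have h2 := tendsto_zero_of_dvd (q := q) u hu
    have h3 := (hR0 (g * h) i k).sub h1
    have h4 : (fun m => lft (ρ m (g * h) i k) - ∑ l, lft (ρ m g i l) * lft (ρ m h l k)) =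
        fun m => ((u m : ℤ) : ℤ_[q]) := by
      funext m
      simp only [lft, u]
      push_cast
      rfl
    rw [h4] at h3
    have h5 := tendsto_nhds_unique h3 h2
    exact sub_eq_zero.1 h5
  refine ⟨{ toFun := fun g => Matrix.of (R0 g)
            map_one' := by
              ext1 i k
              exact hone i k
            map_mul' := fun g h => by
              ext1 i k
              rw [Matrix.mul_apply]
              exact hmul g h i k }, ?_⟩
  intro g hg j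
  have hg' : ∀ i k, R0 g i k = (1 : Matrix (Fin d) (Fin d) ℤ_[q]) i k := by
    intro i k
    exact congrFun (congrFun hg i) k
  have hev : ∀ i k, ∀ᶠ m in (hyperfilter ℕ : Filter ℕ),
      ‖lft (ρ m g i k) - (1 : Matrix (Fin d) (Fin d) ℤ_[q]) i k‖ ≤ (q : ℝ) ^ (-(j : ℤ)) := by
    intro i k
    have h1 := hR0 g i k
    rw [hg'] at h1
    have h2 : Tendsto (fun m => ‖lft (ρ m g i k) - (1 : Matrix (Fin d) (Fin d) ℤ_[q]) i k‖)
        (hyperfilter ℕ : Filter ℕ) (𝓝 0) := by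
      have := (h1.sub_const ((1 : Matrix (Fin d) (Fin d) ℤ_[q]) i k)).norm
      simpa using this
    have hpos : (0 : ℝ) < (q : ℝ) ^ (-(j : ℤ)) := by
      have : (0 : ℝ) < q := by exact_mod_cast hq.out.pos
      positivity
    exact (h2.eventually (gt_mem_nhds hpos)).mono fun m hm => le_of_lt hm
  have hall : ∀ᶠ m in (hyperfilter ℕ : Filter ℕ), ∀ i k,
      ‖lft (ρ m g i k) - (1 : Matrix (Fin d) (Fin d) ℤ_[q]) i k‖ ≤ (q : ℝ) ^ (-(j : ℤ)) := by
    rw [eventually_all]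
    intro i
    rw [eventually_all]
    exact hev i
  have hge : ∀ᶠ m in (hyperfilter ℕ : Filter ℕ), j ≤ m :=
    hyper_le_atTop (eventually_ge_atTop j)
  obtain ⟨m, hm, hjm⟩ := (hall.and hge).exists
  refine ⟨m, hjm, fun i k => ?_⟩
  have h1 := hm i k
  have hne : NeZero (q ^ (m + 1)) := ⟨(pow_pos hq.out.pos _).ne'⟩
  set δ : ℤ := if i = k then 1 else 0 with hδ
  have h2 : lft (ρ m g i k) - (1 : Matrix (Fin d) (Fin d) ℤ_[q]) i k =
      ((((ρ m g i k).val : ℤ) - δ : ℤ) : ℤ_[q]) := by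
    rw [Matrix.one_apply, hδ]
    split_ifs <;> simp [lft]
  rw [h2] at h1
  have h3 := (PadicInt.norm_int_le_pow_iff_dvd (p := q)
    (k := ((ρ m g i k).val : ℤ) - δ) (n := j)).1 h1
  obtain ⟨b, hb⟩ := h3
  refine ⟨(b : ZMod (q ^ (m + 1))), ?_⟩
  have h4 := congrArg (Int.cast : ℤ → ZMod (q ^ (m + 1))) hb
  push_cast at h4
  simp only [ZMod.natCast_val, ZMod.cast_id', id_eq] at h4
  rw [sub_eq_iff_eq_add'] at h4
  rw [h4, Matrix.one_apply, hδ]
  split_ifs <;> simp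

end Vale.Agent.P260.H795
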