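import Vale.Agent.P260.H795.Rep
import Vale.Agent.P260.H795.Lim
import Vale.Agent.P260.H573.BlockF

/-!
# P260, block E: a finitely generated amenable group which is residually a finite `q`-group and
has bounded mod-`q` first Betti numbers on its finite-index subgroups is virtually solvable
-/

namespace Vale.Agent.P260.H795

open Subgroup
open scoped commutatorElement

variable {G : Type} [Group G] {q d : ℕ} {P : ℕ → Subgroup G}

theorem UCh.pow_cancel (hP : UCh q G P d) (i s : ℕ) {x y : G} (hx : x ∈ P i)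
    (hy : y ∈ P i) (h : x ^ q * (y ^ q)⁻¹ ∈ P (i + s + 1)) : x * y⁻¹ ∈ P (i + s) := by
  induction s with
  | zero => exact mul_mem hx (inv_mem hy)
  | succ s ih =>
    have hz : x * y⁻¹ ∈ P (i + s) := ih (hP.anti (by omega) h)
    have hN : (P (i + s + 2)).Normal := hP.normal _
    set z := x * y⁻¹ with hzd
    have hxz : x = z * y := by rw [hzd, inv_mul_cancel_right]
    set π := QuotientGroup.mk' (P (i + s + 2)) with hπ
    have hker : ∀ x : G, π x = 1 ↔ x ∈ P (i + s + 2) := fun x => QuotientGroup.eq_one_iff x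
    have hcom : Commute (π z) (π y) := by
      change π z * π y = π y * π z
      rw [← commutatorElement_eq_one_iff_mul_comm, ← map_commutatorElement, hker]
      exact hP.anti (by omega) (hP.comm (i + s) i (commutator_mem_commutator hz hy))
    have h1 : π (x ^ q * (y ^ q)⁻¹) = 1 := (hker _).2 h
    have h2 : π (z ^ q) = 1 := by
      rw [map_mul, map_inv, map_pow, map_pow, hxz, map_mul, hcom.mul_pow,
        mul_inv_cancel_right] at h1
      rw [map_pow]
      exact h1
    exact hP.inj (i + s) z hz ((hker _).1 h2)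

theorem UCh.pow_cancel' (hP : UCh q G P d) (m : ℕ) : ∀ (i j : ℕ) {x y : G}, x ∈ P i →
    y ∈ P i → x ^ q ^ m * (y ^ q ^ m)⁻¹ ∈ P (i + m + j) → x * y⁻¹ ∈ P (i + j) := by
  induction m with
  | zero =>
    intro i j x y _ _ h
    simpa using h
  | succ m ih =>
    intro i j x y hx hy h
    have h1 : (x ^ q) * (y ^ q)⁻¹ ∈ P (i + 1 + j) := by
      refine ih (i + 1) j (hP.pow i x hx) (hP.pow i y hy) ?_
      rw [← pow_mul, ← pow_mul, ← pow_succ']
      rw [show i + 1 + m + j = i + (m + 1) + j by omega]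
      exact h
    refine hP.pow_cancel i j hx hy ?_
    rw [show i + j + 1 = i + 1 + j by omega]
    exact h1

theorem UCh.pow_mem (hP : UCh q G P d) (m : ℕ) : ∀ (i : ℕ) {x : G}, x ∈ P i →
    x ^ q ^ m ∈ P (i + m) := by
  induction m with
  | zero => intro i x hx; simpa using hx
  | succ m ih =>
    intro i x hx
    rw [pow_succ', pow_mul, show i + (m + 1) = i + 1 + m by omega]
    exact ih (i + 1) (hP.pow i x hx)

/-- The kernel of the limit representation acts trivially modulo every term of the chain. -/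
theorem UCh.exists_rep [hq : Fact q.Prime] (hP : UCh q G P d) :
    ∃ R : G →* Matrix (Fin d) (Fin d) ℤ_[q], ∀ g, R g = 1 → ∀ x ∈ P 0, ∀ j, ⁅g, x⁆ ∈ P j := by
  choose ρ hρ using fun m => rep_exists hP (m + 1) (by omega)
  obtain ⟨R, hR⟩ := limit_rep ρ
  refine ⟨R, fun g hg x hx => ?_⟩
  intro j
  obtain ⟨m, hjm, hm⟩ := hR g hg j
  have h2 := hρ m g j (by omega) hm (x ^ q ^ (m + 1)) (by
    have := hP.pow_mem (m + 1) 0 hx
    rwa [zero_add] at this)
  have h3 : ⁅g, x ^ q ^ (m + 1)⁆ = (g * x * g⁻¹) ^ q ^ (m + 1) * (x ^ q ^ (m + 1))⁻¹ := by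
    rw [commutatorElement_def, conj_pow]
  rw [h3] at h2
  have h4 := hP.pow_cancel' (m + 1) 0 j ((hP.normal 0).conj_mem x hx g) hx
    (by rw [zero_add]; exact h2)
  rw [zero_add] at h4
  rw [commutatorElement_def]
  exact h4

/-- The kernel of the limit representation centralizes `P 0`. -/
theorem UChain.exists_rep [hq : Fact q.Prime] (hP : UChain q G P d) (hres : ResQ q G) :
    ∃ R : G →* Matrix (Fin d) (Fin d) ℤ_[q], ∀ g, R g = 1 → ∀ x ∈ P 0, g * x = x * g := by
  obtain ⟨R, hR⟩ := hP.toUCh.exists_rep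
  refine ⟨R, fun g hg x hx => ?_⟩
  have h1 := hR g hg x hx
  by_contra hne
  have h2 : ⁅g, x⁆ ≠ 1 := by
    rw [Ne, commutatorElement_eq_one_iff_mul_comm]
    exact hne
  obtain ⟨N, hN, hgN, n, hn⟩ := hres _ h2
  obtain ⟨i, hi⟩ := hP.cof N hN ⟨n, hn⟩
  exact hgN (hi (h1 i))

/-- **E2.**  A finitely generated amenable residually-`q` group with a uniform chain is
virtually solvable. -/
theorem UChain.vsolv [hq : Fact q.Prime] (hP : UChain q G P d) (hfg : Group.FG G)
    (hF : Folner G) (hres : ResQ q G) : VSolv G := by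
  obtain ⟨R, hR⟩ := hP.exists_rep hres
  let f : G →* Matrix (Fin d) (Fin d) ℚ_[q] :=
    ((algebraMap ℤ_[q] ℚ_[q]).mapMatrix (m := Fin d)).toMonoidHom.comp R
  have hf : ∀ g, f g = 1 → R g = 1 := by
    intro g hg
    have hinj : Function.Injective (algebraMap ℤ_[q] ℚ_[q]) := IsFractionRing.injective _ _
    have h1 : (R g).map (algebraMap ℤ_[q] ℚ_[q]) =
        (1 : Matrix (Fin d) (Fin d) ℤ_[q]).map (algebraMap ℤ_[q] ℚ_[q]) := by
      have h2 : (R g).map (algebraMap ℤ_[q] ℚ_[q]) = 1 := hg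
      rw [h2, Matrix.map_one _ (map_zero _) (map_one _)]
    exact Matrix.map_injective hinj h1
  let ρ : G →* Matrix.GeneralLinearGroup (Fin d) ℚ_[q] := MonoidHom.toHomUnits f
  obtain ⟨H, hH, hsol⟩ := F.amenable_linear ℚ_[q] d G hfg hF ρ
  have h0 : (P 0).FiniteIndex := by
    obtain ⟨a, ha⟩ := hP.index 0
    exact ⟨by rw [ha]; exact (pow_pos hq.out.pos a).ne'⟩
  refine ⟨H ⊓ P 0, inferInstance, ?_⟩
  let φ : (H ⊓ P 0 : Subgroup G) →* H.map ρ :=
    (ρ.comp (H ⊓ P 0).subtype).codRestrict (H.map ρ) (fun x => mem_map_of_mem ρ x.2.1)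
  have hker : ∀ a b : φ.ker, a * b = b * a := by
    rintro ⟨a, ha⟩ ⟨b, hb⟩
    apply Subtype.ext
    apply Subtype.ext
    have h1 : ρ (a : G) = 1 := congrArg Subtype.val ha
    have h2 : f (a : G) = 1 := by
      have := congrArg Units.val h1
      exact this
    exact hR (a : G) (hf _ h2) (b : G) b.2.2
  have hkers : Group.IsSolvable φ.ker := Group.isSolvable_of_comm hker
  exact Group.isSolvable_of_ker_le_range φ.ker.subtype φ (by rw [Subgroup.range_subtype])

/-- **E2**, with the literal clauses. -/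
theorem vsolv_of_chain (q : ℕ) [hq : Fact q.Prime] (G : Type) [Group G] (hfg : Group.FG G)
    (hF : Folner G) (hres : ResQ q G)
    (hch : ∃ (P : ℕ → Subgroup G) (d : ℕ), (∀ i, (P i).Normal) ∧
      (∀ i, ∃ a, (P i).index = q ^ a) ∧
      (∀ i, P (i+1) ≤ P i) ∧ (∀ i j, ⁅P i, P j⁆ ≤ P (i + j + 2)) ∧
      (∀ i, ∀ x ∈ P i, x ^ q ∈ P (i+1)) ∧ (∀ i, ∀ x ∈ P i, x ^ q ∈ P (i+2) → x ∈ P (i+1)) ∧
      (∀ i, ∀ y ∈ P (i+1), ∃ x ∈ P i, x ^ q * y⁻¹ ∈ P (i+2)) ∧
      (∀ i, (P (i+1)).relIndex (P i) = q ^ d) ∧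
      (∀ N : Subgroup G, N.Normal → (∃ a, N.index = q ^ a) → ∃ i, P i ≤ N)) : VSolv G := by
  obtain ⟨P, d, h1, h2, h3, h4, h5, h6, h7, h8, h9⟩ := hch
  exact UChain.vsolv (P := P) (d := d) ⟨⟨h1, h3, h4, h5, h6, h7, h8⟩, h2, h9⟩ hfg hF hres

/-- **Block E.**  A finitely generated amenable group which is residually a finite `q`-group and
whose finite-index subgroups have bounded mod-`q` first Betti numbers is virtually solvable. -/
theorem blockE (q : ℕ) [hq : Fact q.Prime] (G : Type) [Group G] (hfg : Group.FG G)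
    (hF : Folner G) (hres : ResQ q G) (C : ℕ)
    (hC : ∀ H : Subgroup G, H.FiniteIndex → ∀ (n : ℕ) (f : H →* Multiplicative (Fin n → ZMod q)),
      Function.Surjective f → n ≤ C) : VSolv G :=
  vsolv_of_chain q G hfg hF hres (chain_exists q G hfg C hC)

end Vale.Agent.P260.H795
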