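import Mathlib

/-!
# P260, block E, part 2: finite homocyclic groups
-/

namespace Vale.Agent.P260.H795

/-- A finite abelian group with a uniform chain of length `m` and `d` generators modulo the first
term is free over `ZMod (q ^ m)`. -/
theorem homocyclic {A : Type*} [AddCommGroup A] {q m d : ℕ} (hq : 1 < q)
    (Ak : ℕ → AddSubgroup A) (h0 : Ak 0 = ⊤) (hm : Ak m = ⊥)
    (hb : ∀ k, ∀ a ∈ Ak k, q • a ∈ Ak (k + 1))
    (hc : ∀ k, k + 2 ≤ m → ∀ b ∈ Ak (k + 1), ∃ a ∈ Ak k, q • a - b ∈ Ak (k + 2))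
    (x : Fin d → A) (hx : ∀ y : A, ∃ s ∈ AddSubgroup.closure (Set.range x), y - s ∈ Ak 1)
    (hcard : Nat.card A = q ^ (d * m)) :
    ∃ inst : Module (ZMod (q ^ m)) A, Nonempty (@LinearEquiv (ZMod (q ^ m)) (ZMod (q ^ m)) _ _
      (RingHom.id _) (RingHom.id _) _ _ (Fin d → ZMod (q ^ m)) A _ _ _ inst) := by
  classical
  have hexp' : ∀ k, ∀ a : A, q ^ k • a ∈ Ak k := by
    intro k
    induction k with
    | zero => intro a; rw [h0]; trivial
    | succ k ih =>
      intro a
      rw [pow_succ', mul_smul]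
      exact hb k _ (ih a)
  have hexp : ∀ a : A, q ^ m • a = 0 := by
    intro a
    have := hexp' m a
    rw [hm] at this
    exact this
  set S := AddSubgroup.closure (Set.range x) with hS
  have hstep : ∀ k, k + 1 ≤ m → ∀ y ∈ Ak k, ∃ s ∈ S, y - s ∈ Ak (k + 1) := by
    intro k
    induction k with
    | zero => intro _ y _; exact hx y
    | succ k ih =>
      intro hk y hy
      obtain ⟨a, ha, hab⟩ := hc k hk y hy
      obtain ⟨s, hs, hs2⟩ := ih (by omega) a ha
      refine ⟨q • s, S.nsmul_mem hs q, ?_⟩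
      have h1 : q • (a - s) ∈ Ak (k + 1 + 1) := hb _ _ hs2
      have h2 : y - q • s = q • (a - s) - (q • a - y) := by
        rw [smul_sub]; abel
      rw [h2]
      exact (Ak _).sub_mem h1 hab
  have hall : ∀ k, k ≤ m → ∀ y : A, ∃ s ∈ S, y - s ∈ Ak k := by
    intro k
    induction k with
    | zero => intro _ y; exact ⟨0, S.zero_mem, by rw [h0]; trivial⟩
    | succ k ih =>
      intro hk y
      obtain ⟨s, hs, hs2⟩ := ih (by omega) y
      obtain ⟨t, ht, ht2⟩ := hstep k hk _ hs2
      refine ⟨s + t, S.add_mem hs ht, ?_⟩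
      rw [← sub_sub]
      exact ht2
  have hStop : S = ⊤ := by
    rw [eq_top_iff]
    intro y _
    obtain ⟨s, hs, hs2⟩ := hall m le_rfl y
    rw [hm, AddSubgroup.mem_bot, sub_eq_zero] at hs2
    rw [hs2]
    exact hs
  have inst : Module (ZMod (q ^ m)) A := AddCommGroup.zmodModule hexp
  refine ⟨inst, ?_⟩
  have hne : NeZero (q ^ m) := ⟨(pow_pos (by omega) m).ne'⟩
  have hfin : Finite A := by
    apply Nat.finite_of_card_ne_zero
    rw [hcard]
    exact (pow_pos (by omega) _).ne'
  let Φ : (Fin d → ZMod (q ^ m)) →ₗ[ZMod (q ^ m)] A := Fintype.linearCombination (ZMod (q ^ m)) x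
  have hsurj : Function.Surjective Φ := by
    have h1 : S ≤ (LinearMap.range Φ).toAddSubgroup := by
      rw [hS, AddSubgroup.closure_le]
      rintro _ ⟨i, rfl⟩
      refine ⟨Pi.single i 1, ?_⟩
      simp [Φ]
    intro y
    have h2 : y ∈ (LinearMap.range Φ).toAddSubgroup := h1 (hStop ▸ AddSubgroup.mem_top y)
    exact h2
  have hbij : Function.Bijective Φ := by
    refine hsurj.bijective_of_nat_card_le ?_
    rw [hcard, Nat.card_fun, Nat.card_zmod, Nat.card_fin, ← pow_mul, mul_comm]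
  exact ⟨LinearEquiv.ofBijective Φ hbij⟩

end Vale.Agent.P260.H795
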