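import Mathlib

/-!
# P260, block E, part 1: the iterated `Φ`-series of a group with bounded `q`-ranks
-/

namespace Vale.Agent.P260.H795

open Subgroup
open scoped commutatorElement

variable {G : Type*} [Group G]

/-- The subgroup generated by commutators and `q`-th powers of elements of `H`. -/
def Phi (q : ℕ) (H : Subgroup G) : Subgroup G :=
  ⁅H, H⁆ ⊔ closure {x | ∃ h ∈ H, h ^ q = x}

theorem commutator_le_Phi (q : ℕ) (H : Subgroup G) : ⁅H, H⁆ ≤ Phi q H := le_sup_left

theorem pow_mem_Phi (q : ℕ) {H : Subgroup G} {x : G} (hx : x ∈ H) : x ^ q ∈ Phi q H :=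
  (le_sup_right : _ ≤ Phi q H) (subset_closure ⟨x, hx, rfl⟩)

theorem Phi_le_iff {q : ℕ} {H K : Subgroup G} :
    Phi q H ≤ K ↔ (∀ x ∈ H, ∀ y ∈ H, ⁅x, y⁆ ∈ K) ∧ ∀ x ∈ H, x ^ q ∈ K := by
  unfold Phi
  rw [sup_le_iff, commutator_le, closure_le]
  constructor
  · rintro ⟨h1, h2⟩
    exact ⟨h1, fun x hx => h2 ⟨x, hx, rfl⟩⟩
  · rintro ⟨h1, h2⟩
    refine ⟨h1, ?_⟩
    rintro _ ⟨x, hx, rfl⟩
    exact h2 x hx

theorem Phi_le (q : ℕ) (H : Subgroup G) : Phi q H ≤ H := by
  rw [Phi_le_iff]
  refine ⟨fun x hx y hy => ?_, fun x hx => H.pow_mem hx q⟩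
  rw [commutatorElement_def]
  exact H.mul_mem (H.mul_mem (H.mul_mem hx hy) (H.inv_mem hx)) (H.inv_mem hy)

theorem Phi_mono {q : ℕ} {H K : Subgroup G} (h : H ≤ K) : Phi q H ≤ Phi q K := by
  rw [Phi_le_iff]
  exact ⟨fun x hx y hy => commutator_le_Phi q K (commutator_mem_commutator (h hx) (h hy)),
    fun x hx => pow_mem_Phi q (h hx)⟩

theorem map_Phi {G' : Type*} [Group G'] (f : G →* G') (q : ℕ) (H : Subgroup G) :
    (Phi q H).map f = Phi q (H.map f) := by
  apply le_antisymm
  · rw [map_le_iff_le_comap, Phi_le_iff]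
    refine ⟨fun x hx y hy => ?_, fun x hx => ?_⟩
    · rw [mem_comap, map_commutatorElement]
      exact commutator_le_Phi q _ (commutator_mem_commutator (mem_map_of_mem f hx)
        (mem_map_of_mem f hy))
    · rw [mem_comap, map_pow]
      exact pow_mem_Phi q (mem_map_of_mem f hx)
  · rw [Phi_le_iff]
    refine ⟨?_, ?_⟩
    · rintro _ ⟨x, hx, rfl⟩ _ ⟨y, hy, rfl⟩
      rw [← map_commutatorElement]
      exact mem_map_of_mem f (commutator_le_Phi q H (commutator_mem_commutator hx hy))
    · rintro _ ⟨x, hx, rfl⟩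
      rw [← map_pow]
      exact mem_map_of_mem f (pow_mem_Phi q hx)

instance Phi_normal (q : ℕ) (H : Subgroup G) [hH : H.Normal] : (Phi q H).Normal := by
  constructor
  intro n hn g
  have h1 : (Phi q H).map (MulAut.conj g).toMonoidHom = Phi q H := by
    rw [map_Phi]
    congr 1
    apply le_antisymm
    · rintro _ ⟨x, hx, rfl⟩
      exact hH.conj_mem x hx g
    · intro x hx
      refine ⟨g⁻¹ * x * g, ?_, ?_⟩
      · have := hH.conj_mem x hx g⁻¹
        simpa using this
      · simp [mul_assoc]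
  rw [← h1]
  exact ⟨n, hn, rfl⟩

/-- A homomorphism on `H` with commuting values of order dividing `q` kills `Phi q H`. -/
theorem hom_Phi {A : Type*} [Group A] {q : ℕ} {H : Subgroup G} (f : H →* A)
    (hc : ∀ x y, Commute (f x) (f y)) (hq : ∀ x, f x ^ q = 1) {v : G} (hv : v ∈ Phi q H) :
    f ⟨v, Phi_le q H hv⟩ = 1 := by
  have h : Phi q H ≤ f.ker.map H.subtype := by
    rw [Phi_le_iff]
    refine ⟨fun x hx y hy => ?_, fun x hx => ?_⟩
    · refine ⟨⁅(⟨x, hx⟩ : H), (⟨y, hy⟩ : H)⁆, ?_, ?_⟩
      · rw [SetLike.mem_coe, MonoidHom.mem_ker, map_commutatorElement,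
          commutatorElement_eq_one_iff_commute]
        exact hc _ _
      · rfl
    · refine ⟨(⟨x, hx⟩ : H) ^ q, ?_, ?_⟩
      · rw [SetLike.mem_coe, MonoidHom.mem_ker, map_pow]
        exact hq _
      · rfl
  obtain ⟨w, hw, hwv⟩ := h hv
  have : w = ⟨v, Phi_le q H hv⟩ := Subtype.ext hwv
  rw [← this]
  exact hw

/-- The iterated `Φ`-series. -/
def PS (q : ℕ) (G : Type*) [Group G] : ℕ → Subgroup G
  | 0 => ⊤
  | n + 1 => Phi q (PS q G n)

@[simp] theorem PS_zero (q : ℕ) : PS q G 0 = ⊤ := rfl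
@[simp] theorem PS_succ (q n : ℕ) : PS q G (n + 1) = Phi q (PS q G n) := rfl

instance PS_normal (q n : ℕ) : (PS q G n).Normal := by
  induction n with
  | zero => rw [PS_zero]; infer_instance
  | succ _ ih => rw [PS_succ]; infer_instance

theorem PS_antitone (q : ℕ) : Antitone (PS q G) :=
  antitone_nat_of_succ_le fun n => Phi_le q _

/-- Below a strict inclusion of normal subgroups of a group with `q`-power index there is a
central chief factor. -/
theorem exists_central {q : ℕ} [hq : Fact q.Prime] {M N : Subgroup G} [hM : M.Normal]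
    [hN : N.Normal] (hMN : M < N) {a : ℕ} (ha : M.index = q ^ a) :
    ∃ M' : Subgroup G, M'.Normal ∧ M < M' ∧ M' ≤ N ∧ (∀ x ∈ M', ∀ g : G, ⁅x, g⁆ ∈ M) ∧
      ∀ x ∈ M', x ^ q ∈ M := by
  classical
  have hcard : Nat.card (G ⧸ M) = q ^ a := ha
  have hpos : 0 < q ^ a := pow_pos hq.out.pos a
  have hfin : Finite (G ⧸ M) := Nat.finite_of_card_ne_zero (by rw [hcard]; exact hpos.ne')
  have hP : IsPGroup q (G ⧸ M) := IsPGroup.of_card hcard
  set π := QuotientGroup.mk' M with hπ
  have hπs : Function.Surjective π := QuotientGroup.mk'_surjective M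
  have hNbar : (N.map π).Normal := Normal.map hN π hπs
  have hnt : N.map π ≠ ⊥ := by
    intro h
    rw [(map_eq_bot_iff N)] at h
    rw [hπ, QuotientGroup.ker_mk'] at h
    exact absurd h (not_le_of_gt hMN)
  -- fixed point
  have hPN : IsPGroup q (N.map π) := hP.to_subgroup _
  obtain ⟨b, hb, hb1⟩ : ∃ b : (N.map π), b ∈ MulAction.fixedPoints (ConjAct (G ⧸ M)) (N.map π) ∧
      (1 : N.map π) ≠ b := by
    refine (hP.of_equiv ConjAct.toConjAct).exists_fixed_point_of_prime_dvd_card_of_fixed_point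
      (N.map π) ?_ (a := 1) ?_
    · have : Nontrivial (N.map π) := (nontrivial_iff_ne_bot _).2 hnt
      obtain ⟨n, hn0, hn⟩ := hPN.nontrivial_iff_card.mp inferInstance
      exact hn.symm ▸ dvd_pow_self _ (ne_of_gt hn0)
    · intro g
      exact smul_one g
  have hbc : ∀ g : G ⧸ M, Commute (b : G ⧸ M) g := by
    intro g
    have h := hb (ConjAct.toConjAct g)
    have h2 := congrArg (Subtype.val) h
    rw [ConjAct.Subgroup.val_conj_smul, ConjAct.toConjAct_smul] at h2
    rw [mul_inv_eq_iff_eq_mul] at h2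
    exact h2.symm
  -- an element of order q
  obtain ⟨c, hcN, hcc, hc1, hcq⟩ : ∃ c : G ⧸ M, c ∈ N.map π ∧ (∀ g, Commute c g) ∧ c ≠ 1 ∧
      c ^ q = 1 := by
    obtain ⟨k, hk⟩ := hPN b
    -- minimal k with b^(q^k) = 1
    have hex : ∃ k, (b : G ⧸ M) ^ q ^ k = 1 := ⟨k, by
      have := congrArg Subtype.val hk
      simpa using this⟩
    set k0 := Nat.find hex with hk0
    have hk0spec : (b : G ⧸ M) ^ q ^ k0 = 1 := Nat.find_spec hex
    have hk0pos : k0 ≠ 0 := by
      intro h0
      rw [h0, pow_zero, pow_one] at hk0spec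
      exact hb1 (Subtype.ext (by simpa using hk0spec.symm))
    obtain ⟨k1, hk1⟩ := Nat.exists_eq_succ_of_ne_zero hk0pos
    refine ⟨(b : G ⧸ M) ^ q ^ k1, (N.map π).pow_mem b.2 _, fun g => (hbc g).pow_left _, ?_, ?_⟩
    · intro h
      have := Nat.find_min' hex h
      omega
    · rw [← pow_mul, ← pow_succ]
      rw [hk1] at hk0spec
      exact hk0spec
  -- the subgroup of central elements of order dividing q in N
  let Om : Subgroup (G ⧸ M) :=
    { carrier := {c | c ∈ N.map π ∧ (∀ g, Commute c g) ∧ c ^ q = 1}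
      mul_mem' := by
        rintro x y ⟨hx1, hx2, hx3⟩ ⟨hy1, hy2, hy3⟩
        refine ⟨mul_mem hx1 hy1, fun g => (hx2 g).mul_left (hy2 g), ?_⟩
        rw [(hx2 y).mul_pow, hx3, hy3, one_mul]
      one_mem' := ⟨one_mem _, fun g => Commute.one_left g, one_pow _⟩
      inv_mem' := by
        rintro x ⟨hx1, hx2, hx3⟩
        refine ⟨inv_mem hx1, fun g => (hx2 g).inv_left, ?_⟩
        rw [inv_pow, hx3, inv_one] }
  have hOm : ∀ x, x ∈ Om ↔ x ∈ N.map π ∧ (∀ g, Commute x g) ∧ x ^ q = 1 := fun x => Iff.rfl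
  have hker : ∀ x : G, π x = 1 ↔ x ∈ M := fun x => QuotientGroup.eq_one_iff x
  refine ⟨Om.comap π, ?_, ?_, ?_, ?_, ?_⟩
  · constructor
    intro x hx g
    rw [mem_comap] at hx ⊢
    have hx2 := ((hOm _).1 hx).2.1 (π g)
    have : π (g * x * g⁻¹) = π x := by
      rw [map_mul, map_mul, map_inv, ← hx2.eq, mul_inv_cancel_right]
    rw [this]
    exact hx
  · constructor
    · intro x hx
      rw [mem_comap, (hker x).2 hx]
      exact one_mem _
    · intro h
      obtain ⟨y, rfl⟩ := hπs c
      have : y ∈ Om.comap π := (hOm _).2 ⟨hcN, hcc, hcq⟩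
      exact hc1 ((hker y).2 (h this))
  · intro x hx
    obtain ⟨y, hy, hyx⟩ := ((hOm _).1 hx).1
    have : y⁻¹ * x ∈ M := by
      rw [← hker, map_mul, map_inv, hyx, inv_mul_cancel]
    have h2 := N.mul_mem hy (hMN.le this)
    simpa using h2
  · intro x hx g
    rw [← hker, map_commutatorElement, commutatorElement_eq_one_iff_commute]
    exact ((hOm _).1 hx).2.1 _
  · intro x hx
    rw [← hker, map_pow]
    exact ((hOm _).1 hx).2.2

/-- A normal subgroup of index `q ^ a` contains the `a`-th term of the series. -/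
theorem PS_le_of_index {q : ℕ} [hq : Fact q.Prime] (a : ℕ) (N : Subgroup G) [hN : N.Normal]
    (h : N.index = q ^ a) : PS q G a ≤ N := by
  induction a using Nat.strong_induction_on generalizing N with
  | _ a ih =>
    rcases eq_or_ne N ⊤ with rfl | hne
    · exact le_top
    have hlt : N < ⊤ := lt_top_iff_ne_top.2 hne
    obtain ⟨M', hM'n, hM'lt, -, hc, hp⟩ := exists_central hlt h
    have hdvd : M'.index ∣ q ^ a := h ▸ index_dvd_of_le hM'lt.le
    obtain ⟨b, hb, hb2⟩ := (Nat.dvd_prime_pow hq.out).1 hdvd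
    have hba : b < a := by
      rcases hb.lt_or_eq with h1 | h1
      · exact h1
      · exfalso
        have h3 : N.relIndex M' * M'.index = N.index := relIndex_mul_index hM'lt.le
        rw [hb2, h, h1] at h3
        have h4 : N.relIndex M' = 1 := by
          have := pow_pos hq.out.pos a
          exact Nat.eq_of_mul_eq_mul_right this (by rw [h3, one_mul])
        rw [relIndex_eq_one] at h4
        exact absurd h4 (not_le_of_gt hM'lt)
    have h1 : PS q G b ≤ M' := ih b hba M' hb2
    have h2 : PS q G (b + 1) ≤ N := by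
      rw [PS_succ]
      refine (Phi_mono h1).trans ?_
      rw [Phi_le_iff]
      exact ⟨fun x hx y _ => hc x hx y, hp⟩
    exact (PS_antitone q (by omega : b + 1 ≤ a)).trans h2

/-- **(F2)** An elementary abelian section of order at most `B` is centralised by a fixed term of
the series. -/
theorem section_central {q : ℕ} [hq : Fact q.Prime] {M E : Subgroup G} [hM : M.Normal]
    [hE : E.Normal] (hME : M ≤ E) {a : ℕ} (ha : M.index = q ^ a) {B : ℕ}
    (hB : M.relIndex E ≤ B) (v : G) (hv : v ∈ PS q G (B ^ B)) (x : G) (hx : x ∈ E) :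
    ⁅v, x⁆ ∈ M := by
  classical
  set π := QuotientGroup.mk' M with hπ
  have hπs : Function.Surjective π := QuotientGroup.mk'_surjective M
  have hker : ∀ x : G, π x = 1 ↔ x ∈ M := fun x => QuotientGroup.eq_one_iff x
  have hEbar : (E.map π).Normal := Normal.map hE π hπs
  let f : G →* MulAut (E.map π) := MulAut.conjNormal.comp π
  have hf : ∀ g (y : E.map π), ((f g y : E.map π) : G ⧸ M) = π g * y * (π g)⁻¹ := fun g y => by
    change ((MulAut.conjNormal (π g) y : E.map π) : G ⧸ M) = _
    exact MulAut.conjNormal_apply _ _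
  have hMker : M ≤ f.ker := by
    intro m hm
    rw [MonoidHom.mem_ker]
    ext y
    rw [hf, (hker m).2 hm]
    simp
  have hposM : M.index ≠ 0 := by rw [ha]; exact (pow_pos hq.out.pos a).ne'
  have hidx : f.ker.index ∣ q ^ a := ha ▸ index_dvd_of_le hMker
  obtain ⟨b, hb, hb2⟩ := (Nat.dvd_prime_pow hq.out).1 hidx
  have hEcard : Nat.card (E.map π) = M.relIndex E := by
    have h1 : (E.map π).index * Nat.card (E.map π) = Nat.card (G ⧸ M) := by
      rw [mul_comm]; exact card_mul_index _
    have h2 : (E.map π).index = E.index := by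
      apply index_map_eq E hπs
      rw [hπ, QuotientGroup.ker_mk']
      exact hME
    have h3 : M.relIndex E * E.index = M.index := relIndex_mul_index hME
    have h4 : Nat.card (G ⧸ M) = M.index := rfl
    have hE0 : E.index ≠ 0 := by
      intro h; rw [h, mul_zero] at h3; exact hposM h3.symm
    rw [h2, h4, ← h3, mul_comm] at h1
    exact Nat.eq_of_mul_eq_mul_right (Nat.pos_of_ne_zero hE0) h1
  have hEfin : Finite (E.map π) := by
    apply Nat.finite_of_card_ne_zero
    rw [hEcard]
    intro h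
    have h3 : M.relIndex E * E.index = M.index := relIndex_mul_index hME
    rw [h, zero_mul] at h3
    exact hposM h3.symm
  have hEpos : 0 < Nat.card (E.map π) := Nat.card_pos
  have hbB : b ≤ B ^ B := by
    have h1 : f.ker.index ≤ B ^ B := by
      rw [index_ker]
      calc Nat.card f.range ≤ Nat.card (MulAut (E.map π)) :=
            Nat.card_le_card_of_injective _ Subtype.val_injective
        _ ≤ Nat.card (E.map π → E.map π) :=
            Nat.card_le_card_of_injective (fun e : MulAut (E.map π) => (e : E.map π → E.map π))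
              (fun e1 e2 h => MulEquiv.ext (fun x => congrFun h x))
        _ = Nat.card (E.map π) ^ Nat.card (E.map π) := by rw [Nat.card_fun]
        _ ≤ B ^ B := by
            have h5 : Nat.card (E.map π) ≤ B := hEcard ▸ hB
            exact (Nat.pow_le_pow_left h5 _).trans
              (Nat.pow_le_pow_right (lt_of_lt_of_le hEpos h5) h5)
    rw [hb2] at h1
    exact (Nat.lt_pow_self hq.out.one_lt).le.trans h1
  have h1 : PS q G b ≤ f.ker := PS_le_of_index b f.ker hb2
  have hvk : v ∈ f.ker := h1 (PS_antitone q hbB hv)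
  rw [← hker, map_commutatorElement, commutatorElement_eq_one_iff_commute]
  have h2 := hf v ⟨π x, mem_map_of_mem π hx⟩
  rw [MonoidHom.mem_ker.1 hvk] at h2
  simp only [MulAut.one_apply] at h2
  rw [eq_mul_inv_iff_mul_eq] at h2
  exact h2.symm

end Vale.Agent.P260.H795
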