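import Vale.Agent.P260.H795.Phi

/-!
# P260, block E, part 1: orders of elementary abelian sections, the main lemma
-/

namespace Vale.Agent.P260.H795

open Subgroup
open scoped commutatorElement

theorem elem_equiv1 {A : Type*} [AddCommGroup A] {q : ℕ} [hq : Fact q.Prime] [Module (ZMod q) A]
    [h2 : Module.Finite (ZMod q) A] : ∃ n : ℕ, Nonempty (A ≃+ (Fin n → ZMod q)) := by
  exact ⟨_, ⟨(Module.finBasis (ZMod q) A).equivFun.toAddEquiv⟩⟩

theorem elem_equiv2 {A : Type*} [AddCommGroup A] (hfg : AddGroup.FG A) {q : ℕ} [hq : Fact q.Prime]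
    (hpow : ∀ a : A, q • a = 0) : ∃ n : ℕ, Nonempty (A ≃+ (Fin n → ZMod q)) := by
  have inst : Module (ZMod q) A := AddCommGroup.zmodModule hpow
  have h1 : Module.Finite ℤ A := Module.Finite.iff_addGroup_fg.2 hfg
  have h2 : Module.Finite (ZMod q) A :=
    Module.Finite.of_restrictScalars_finite ℤ (ZMod q) A
  exact elem_equiv1

theorem elem_equiv {A : Type*} [CommGroup A] (hfg : Group.FG A) {q : ℕ} [hq : Fact q.Prime]
    (hpow : ∀ a : A, a ^ q = 1) : ∃ n : ℕ, Nonempty (A ≃* Multiplicative (Fin n → ZMod q)) := by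
  obtain ⟨n, ⟨e⟩⟩ := elem_equiv2 (A := Additive A) ((GroupFG.iff_add_fg).1 hfg) (q := q)
    (fun a => congrArg Additive.ofMul (hpow (Additive.toMul a)))
  exact ⟨n, ⟨AddEquiv.toMultiplicativeRight e⟩⟩

/-- Elementary abelian quotients of a finitely generated group of bounded `q`-rank. -/
theorem index_elem {E : Type*} [Group E] (hfg : Group.FG E) {q : ℕ} [hq : Fact q.Prime] {C : ℕ}
    (hC : ∀ (n : ℕ) (f : E →* Multiplicative (Fin n → ZMod q)), Function.Surjective f → n ≤ C)
    (M : Subgroup E) [hM : M.Normal] (hc : ∀ x y : E, ⁅x, y⁆ ∈ M) (hp : ∀ x : E, x ^ q ∈ M) :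
    ∃ r ≤ C, M.index = q ^ r := by
  classical
  have hker : ∀ x : E, (QuotientGroup.mk' M) x = 1 ↔ x ∈ M :=
    fun x => QuotientGroup.eq_one_iff x
  have hcomm : ∀ a b : E ⧸ M, a * b = b * a := by
    intro a b
    obtain ⟨x, rfl⟩ := QuotientGroup.mk'_surjective M a
    obtain ⟨y, rfl⟩ := QuotientGroup.mk'_surjective M b
    have h := (hker _).2 (hc x y)
    rw [map_commutatorElement, commutatorElement_eq_one_iff_mul_comm] at h
    exact h
  have hpow : ∀ a : E ⧸ M, a ^ q = 1 := by
    intro a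
    obtain ⟨x, rfl⟩ := QuotientGroup.mk'_surjective M a
    rw [← map_pow]
    exact (hker _).2 (hp x)
  let inst : CommGroup (E ⧸ M) :=
    { (inferInstance : Group (E ⧸ M)) with mul_comm := hcomm }
  have hfgA : Group.FG (E ⧸ M) := Group.fg_of_surjective (QuotientGroup.mk'_surjective M)
  obtain ⟨n, ⟨e⟩⟩ := elem_equiv (A := E ⧸ M) hfgA hpow
  refine ⟨n, hC n (e.toMonoidHom.comp (QuotientGroup.mk' M)) ?_, ?_⟩
  · exact e.surjective.comp (QuotientGroup.mk'_surjective M)
  · have h3 : M.index = Nat.card (E ⧸ M) := rfl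
    rw [h3, Nat.card_congr (e.toEquiv.trans Multiplicative.toAdd), Nat.card_fun, Nat.card_zmod,
      Nat.card_fin]

variable {G : Type} [Group G]

/-- The hypothesis of block E. -/
def RankLE (q : ℕ) (G : Type) [Group G] (C : ℕ) : Prop :=
  ∀ H : Subgroup G, H.FiniteIndex → ∀ (n : ℕ) (f : H →* Multiplicative (Fin n → ZMod q)),
    Function.Surjective f → n ≤ C

theorem relIndex_elem {q : ℕ} [hq : Fact q.Prime] (hfg : Group.FG G) {C : ℕ}
    (hC : RankLE q G C) {M E : Subgroup G} (hE : E.index ≠ 0) [hM : M.Normal]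
    (hc : ∀ x ∈ E, ∀ y ∈ E, ⁅x, y⁆ ∈ M) (hp : ∀ x ∈ E, x ^ q ∈ M) :
    ∃ r ≤ C, M.relIndex E = q ^ r := by
  have hEf : E.FiniteIndex := ⟨hE⟩
  have hfgE : Group.FG E := inferInstance
  refine index_elem hfgE (fun n f hf => hC E hEf n f hf) (M.subgroupOf E) ?_ ?_
  · rintro ⟨x, hx⟩ ⟨y, hy⟩
    exact hc x hx y hy
  · rintro ⟨x, hx⟩
    exact hp x hx

/-- The series has `q`-power index. -/
theorem PS_index {q : ℕ} [hq : Fact q.Prime] (hfg : Group.FG G) {C : ℕ}
    (hC : RankLE q G C) (n : ℕ) : ∃ a, (PS q G n).index = q ^ a := by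
  induction n with
  | zero => exact ⟨0, by simp⟩
  | succ n ih =>
    obtain ⟨a, ha⟩ := ih
    have h0 : (PS q G n).index ≠ 0 := by rw [ha]; exact (pow_pos hq.out.pos a).ne'
    obtain ⟨r, -, hr⟩ := relIndex_elem (q := q) hfg hC (M := PS q G (n + 1)) (E := PS q G n) h0
      (fun x hx y hy => commutator_le_Phi q _ (commutator_mem_commutator hx hy))
      (fun x hx => pow_mem_Phi q hx)
    refine ⟨r + a, ?_⟩
    rw [PS_succ] at hr ⊢
    rw [← relIndex_mul_index (Phi_le q (PS q G n)), pow_add, ← ha, hr]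

/-- The order bound for elementary abelian sections. -/
def bd (q C : ℕ) : ℕ := (q ^ C) ^ (q ^ C)

theorem F2 {q : ℕ} [hq : Fact q.Prime] (hfg : Group.FG G) {C : ℕ} (hC : RankLE q G C)
    {M E : Subgroup G} [hM : M.Normal] [hE : E.Normal] (hME : M ≤ E) {a : ℕ}
    (ha : M.index = q ^ a) (hc : ∀ x ∈ E, ∀ y ∈ E, ⁅x, y⁆ ∈ M) (hp : ∀ x ∈ E, x ^ q ∈ M)
    {v : G} (hv : v ∈ PS q G (bd q C)) {x : G} (hx : x ∈ E) : ⁅v, x⁆ ∈ M := by
  have h0 : E.index ≠ 0 := by
    have h1 : E.index ∣ q ^ a := ha ▸ index_dvd_of_le hME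
    intro h
    rw [h] at h1
    exact (pow_pos hq.out.pos a).ne' (Nat.eq_zero_of_zero_dvd h1)
  obtain ⟨r, hr, hr2⟩ := relIndex_elem (q := q) hfg hC h0 hc hp
  exact section_central hME ha (B := q ^ C)
    (hr2 ▸ Nat.pow_le_pow_right hq.out.pos hr) v hv x hx

/-- `x ^ q` commutes with `y` if `⁅x, y⁆` is central of order dividing `q`. -/
theorem commute_pow_of_central {A : Type*} [Group A] {q : ℕ} {x y : A}
    (h1 : Commute ⁅x, y⁆ x) (h2 : ⁅x, y⁆ ^ q = 1) : Commute (x ^ q) y := by
  have h3 : y * x * y⁻¹ = (⁅x, y⁆)⁻¹ * x := by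
    rw [commutatorElement_def]; group
  have h4 : y * x ^ q * y⁻¹ = x ^ q := by
    rw [← conj_pow, h3, (h1.inv_left).mul_pow, inv_pow, h2, inv_one, one_mul]
  exact (mul_inv_eq_iff_eq_mul.1 h4).symm

/-- **Main Lemma.** -/
theorem main_lemma {q : ℕ} [hq : Fact q.Prime] (hfg : Group.FG G) {C : ℕ} (hC : RankLE q G C)
    {N : Subgroup G} [hN : N.Normal] (hNW : N ≤ PS q G (bd q C + 1)) (a : ℕ)
    (M : Subgroup G) [hM : M.Normal] (ha : M.index = q ^ a) (hMN : M ≤ N)
    (hqq : ∀ x ∈ N, x ^ (q * q) ∈ M) :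
    ∀ x ∈ N, ∀ w ∈ PS q G (bd q C + 1), ⁅x, w⁆ ∈ M := by
  classical
  induction a using Nat.strong_induction_on generalizing M with
  | _ a ih =>
    rcases hMN.eq_or_lt with rfl | hlt
    · intro x hx w _
      have : ⁅x, w⁆ = x * (w * x⁻¹ * w⁻¹) := by rw [commutatorElement_def]; group
      rw [this]
      exact M.mul_mem hx (hM.conj_mem _ (M.inv_mem hx) w)
    obtain ⟨M', hM'n, hM'lt, hM'N, hc, hp⟩ := exists_central hlt ha
    have hdvd : M'.index ∣ q ^ a := ha ▸ index_dvd_of_le hM'lt.le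
    obtain ⟨b, hb, hb2⟩ := (Nat.dvd_prime_pow hq.out).1 hdvd
    have hba : b < a := by
      rcases hb.lt_or_eq with h1 | h1
      · exact h1
      · exfalso
        have h3 : M.relIndex M' * M'.index = M.index := relIndex_mul_index hM'lt.le
        rw [hb2, ha, h1] at h3
        have h4 : M.relIndex M' = 1 := by
          have := pow_pos hq.out.pos a
          exact Nat.eq_of_mul_eq_mul_right this (by rw [h3, one_mul])
        rw [relIndex_eq_one] at h4
        exact absurd h4 (not_le_of_gt hM'lt)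
    have hind := ih b hba M' hb2 hM'N (fun x hx => hM'lt.le (hqq x hx))
    set π := QuotientGroup.mk' M with hπ
    have hπs : Function.Surjective π := QuotientGroup.mk'_surjective M
    have hker : ∀ x : G, π x = 1 ↔ x ∈ M := fun x => QuotientGroup.eq_one_iff x
    -- elements of M' are central mod M
    have hM'c : ∀ x ∈ M', ∀ g : G, Commute (π x) (π g) := by
      intro x hx g
      rw [← commutatorElement_eq_one_iff_commute, ← map_commutatorElement]
      exact (hker _).2 (hc x hx g)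
    have hM'q : ∀ x ∈ M', π x ^ q = 1 := by
      intro x hx
      rw [← map_pow]
      exact (hker _).2 (hp x hx)
    -- q-th powers commute with N mod M
    have hpc : ∀ x ∈ N, ∀ y ∈ N, Commute (π x ^ q) (π y) := by
      intro x hx y hy
      have h1 : ⁅x, y⁆ ∈ M' := hind x hx y (hNW hy)
      apply commute_pow_of_central
      · rw [← map_commutatorElement]
        exact hM'c _ h1 x
      · rw [← map_commutatorElement]
        exact hM'q _ h1
    -- the subgroup E = N^q M'
    set E : Subgroup G := closure {x | ∃ n ∈ N, n ^ q = x} ⊔ M' with hE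
    have hEn : E.Normal := by
      have h1 : (closure {x : G | ∃ n ∈ N, n ^ q = x}).Normal := by
        constructor
        intro x hx g
        induction hx using closure_induction with
        | mem x hx =>
          obtain ⟨n, hn, rfl⟩ := hx
          rw [← conj_pow]
          exact subset_closure ⟨_, hN.conj_mem n hn g, rfl⟩
        | one => rw [mul_one, mul_inv_cancel]; exact one_mem _
        | mul x y _ _ h1 h2 =>
          have : g * (x * y) * g⁻¹ = (g * x * g⁻¹) * (g * y * g⁻¹) := by group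
          rw [this]; exact mul_mem h1 h2
        | inv x _ h1 =>
          have : g * x⁻¹ * g⁻¹ = (g * x * g⁻¹)⁻¹ := by group
          rw [this]; exact inv_mem h1
      rw [hE]; infer_instance
    have hEN : E ≤ N := by
      rw [hE, sup_le_iff, closure_le]
      refine ⟨?_, hM'N⟩
      rintro _ ⟨n, hn, rfl⟩
      exact N.pow_mem hn q
    have hM'E : M' ≤ E := le_sup_right
    have hME : M ≤ E := hM'lt.le.trans hM'E
    -- properties of elements of E
    have hEprop : ∀ x ∈ E, (∀ y ∈ N, Commute (π x) (π y)) ∧ π x ^ q = 1 := by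
      intro x hx
      have hle : E ≤ closure ({x | ∃ n ∈ N, n ^ q = x} ∪ (M' : Set G)) := by
        rw [hE, Subgroup.closure_union, Subgroup.closure_eq]
      have hx' := hle hx
      have hsub : ∀ z ∈ closure ({x | ∃ n ∈ N, n ^ q = x} ∪ (M' : Set G)),
          z ∈ N ∧ (∀ y ∈ N, Commute (π z) (π y)) ∧ π z ^ q = 1 := by
        intro z hz
        induction hz using closure_induction with
        | mem z hz =>
          rcases hz with ⟨n, hn, rfl⟩ | hz
          · refine ⟨N.pow_mem hn q, fun y hy => ?_, ?_⟩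
            · rw [map_pow]; exact hpc n hn y hy
            · rw [← map_pow, ← pow_mul]; exact (hker _).2 (hqq n hn)
          · exact ⟨hM'N hz, fun y _ => hM'c z hz y, hM'q z hz⟩
        | one => exact ⟨N.one_mem, fun y _ => by rw [map_one]; exact Commute.one_left _,
            by rw [map_one, one_pow]⟩
        | mul x y _ _ h1 h2 =>
          refine ⟨N.mul_mem h1.1 h2.1, fun z hz => ?_, ?_⟩
          · rw [map_mul]; exact (h1.2.1 z hz).mul_left (h2.2.1 z hz)
          · rw [map_mul, (h1.2.1 y h2.1).mul_pow, h1.2.2, h2.2.2, one_mul]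
        | inv x _ h1 =>
          refine ⟨N.inv_mem h1.1, fun z hz => ?_, ?_⟩
          · rw [map_inv]; exact (h1.2.1 z hz).inv_left
          · rw [map_inv, inv_pow, h1.2.2, inv_one]
      exact (hsub x hx').2
    -- V acts trivially on E/M
    have hV1 : ∀ v ∈ PS q G (bd q C), ∀ x ∈ E, ⁅v, x⁆ ∈ M := by
      intro v hv x hx
      refine F2 hfg hC hME ha (fun x hx y hy => ?_) (fun x hx => ?_) hv hx
      · rw [← hker, map_commutatorElement, commutatorElement_eq_one_iff_commute]
        exact (hEprop x hx).1 y (hEN hy)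
      · rw [← hker, map_pow]
        exact (hEprop x hx).2
    -- V acts trivially on N/E
    have hEidx : E.index ∣ q ^ a := ha ▸ index_dvd_of_le hME
    obtain ⟨b', -, hb'⟩ := (Nat.dvd_prime_pow hq.out).1 hEidx
    have hV2 : ∀ v ∈ PS q G (bd q C), ∀ x ∈ N, ⁅v, x⁆ ∈ E := by
      intro v hv x hx
      refine F2 hfg hC hEN hb' (fun x hx y hy => ?_) (fun x hx => ?_) hv hx
      · exact hM'E (hind x hx y (hNW hy))
      · exact (le_sup_left : _ ≤ E) (subset_closure ⟨x, hx, rfl⟩)
    -- the homomorphism v ↦ [x, v]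
    intro x hx w hw
    rw [PS_succ] at hw
    have hxv : ∀ v ∈ PS q G (bd q C), ⁅x, v⁆ ∈ E := by
      intro v hv
      rw [← commutatorElement_inv]
      exact E.inv_mem (hV2 v hv x hx)
    let f : PS q G (bd q C) →* G ⧸ M :=
      { toFun := fun v => π ⁅x, (v : G)⁆
        map_one' := by simp
        map_mul' := by
          rintro ⟨v, hv⟩ ⟨w, hw⟩
          change π ⁅x, v * w⁆ = π ⁅x, v⁆ * π ⁅x, w⁆
          have h1 : ⁅x, v * w⁆ = ⁅x, v⁆ * (v * ⁅x, w⁆ * v⁻¹) := by
            simp only [commutatorElement_def]; group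
          have h2 : π (v * ⁅x, w⁆ * v⁻¹) = π ⁅x, w⁆ := by
            have h3 := (hker _).2 (hV1 v hv _ (hxv w hw))
            rw [map_commutatorElement, commutatorElement_eq_one_iff_mul_comm] at h3
            rw [map_mul, map_mul, map_inv, h3, mul_inv_cancel_right]
          rw [h1, map_mul, h2] }
    have hfE : ∀ v : PS q G (bd q C), ∃ e ∈ E, f v = π e := fun v => ⟨_, hxv v v.2, rfl⟩
    have h := hom_Phi f (q := q) (by
        intro v w
        obtain ⟨e1, h1, h1'⟩ := hfE v
        obtain ⟨e2, h2, h2'⟩ := hfE w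
        rw [h1', h2']
        exact (hEprop e1 h1).1 e2 (hEN h2)) (by
        intro v
        obtain ⟨e1, h1, h1'⟩ := hfE v
        rw [h1']
        exact (hEprop e1 h1).2) hw
    exact (hker _).1 h

end Vale.Agent.P260.H795
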