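import Vale.Agent.P260.H795.Chain
import Vale.Agent.P260.H795.Lat

/-!
# P260, block E, part 2: the representations over `ZMod (q ^ m)`
-/

namespace Vale.Agent.P260.H795

open Subgroup
open scoped commutatorElement

/-- A uniform chain (relative version). -/
structure UCh (q : ℕ) (G : Type) [Group G] (P : ℕ → Subgroup G) (d : ℕ) : Prop where
  normal : ∀ i, (P i).Normal
  le : ∀ i, P (i+1) ≤ P i
  comm : ∀ i j, ⁅P i, P j⁆ ≤ P (i + j + 2)
  pow : ∀ i, ∀ x ∈ P i, x ^ q ∈ P (i+1)
  inj : ∀ i, ∀ x ∈ P i, x ^ q ∈ P (i+2) → x ∈ P (i+1)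
  surj : ∀ i, ∀ y ∈ P (i+1), ∃ x ∈ P i, x ^ q * y⁻¹ ∈ P (i+2)
  rel : ∀ i, (P (i+1)).relIndex (P i) = q ^ d

/-- A uniform chain. -/
structure UChain (q : ℕ) (G : Type) [Group G] (P : ℕ → Subgroup G) (d : ℕ) : Prop extends
    UCh q G P d where
  index : ∀ i, ∃ a, (P i).index = q ^ a
  cof : ∀ N : Subgroup G, N.Normal → (∃ a, N.index = q ^ a) → ∃ i, P i ≤ N

variable {G : Type} [Group G] {q d : ℕ} {P : ℕ → Subgroup G}

theorem UCh.anti (hP : UCh q G P d) : Antitone P := antitone_nat_of_succ_le hP.le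

theorem UCh.rel' (hP : UCh q G P d) (i k : ℕ) :
    (P (i + k)).relIndex (P i) = q ^ (d * k) := by
  induction k with
  | zero => simp
  | succ k ih =>
    have h1 := relIndex_mul_relIndex (P (i + (k + 1))) (P (i + k)) (P i)
      (hP.anti (by omega)) (hP.anti (by omega))
    rw [← h1, ih, show i + (k + 1) = i + k + 1 by omega, hP.rel, mul_add, mul_one, pow_add]
    ring

/-- Generators modulo a subgroup with elementary abelian quotient. -/
theorem gens_mod {A : Type*} [AddCommGroup A] [hq : Fact q.Prime] [hfin : Finite A]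
    (B : AddSubgroup A) (hB : ∀ a : A, q • a ∈ B) (hcard : B.index = q ^ d) :
    ∃ x : Fin d → A, ∀ y : A, ∃ s ∈ AddSubgroup.closure (Set.range x), y - s ∈ B := by
  classical
  have hfg : AddGroup.FG (A ⧸ B) := inferInstance
  have hker : ∀ y : A, (QuotientAddGroup.mk' B) y = 0 ↔ y ∈ B :=
    fun y => QuotientAddGroup.eq_zero_iff y
  obtain ⟨n, ⟨e⟩⟩ := elem_equiv2 (A := A ⧸ B) hfg (q := q) (by
    intro a
    obtain ⟨y, rfl⟩ := QuotientAddGroup.mk'_surjective B a
    rw [← map_nsmul]
    exact (hker _).2 (hB y))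
  have hn : n = d := by
    have h1 : B.index = Nat.card (A ⧸ B) := rfl
    rw [h1, Nat.card_congr e.toEquiv, Nat.card_fun, Nat.card_zmod, Nat.card_fin] at hcard
    exact Nat.pow_right_injective hq.out.two_le hcard
  subst hn
  choose x hx using fun i => QuotientAddGroup.mk'_surjective B (e.symm (Pi.single i 1))
  refine ⟨x, fun y => ?_⟩
  set c := e (QuotientAddGroup.mk' B y) with hc
  refine ⟨∑ i, (c i).val • x i, ?_, ?_⟩
  · exact AddSubgroup.sum_mem _ fun i _ =>
      AddSubgroup.nsmul_mem _ (AddSubgroup.subset_closure (Set.mem_range_self i)) _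
  · rw [← hker, ← e.map_eq_zero_iff, map_sub, map_sub, ← hc, map_sum, map_sum, sub_eq_zero]
    funext k
    rw [Finset.sum_apply]
    have : ∀ i, (e (QuotientAddGroup.mk' B ((c i).val • x i))) k = if k = i then c i else 0 := by
      intro i
      rw [map_nsmul, hx, map_nsmul, e.apply_symm_apply]
      rcases eq_or_ne k i with h | h
      · subst h
        simp
      · simp [h]
    rw [Finset.sum_congr rfl (fun i _ => this i)]
    simp

/-- **The representation on `P m / P (2 m)`.** -/
theorem rep_exists [hq : Fact q.Prime] (hP : UCh q G P d) (m : ℕ) (hm : 1 ≤ m) :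
    ∃ ρ : G →* Matrix (Fin d) (Fin d) (ZMod (q ^ m)), ∀ g : G, ∀ j ≤ m,
      (∀ i k, ∃ b, ρ g i k = (1 : Matrix (Fin d) (Fin d) (ZMod (q ^ m))) i k
        + (q : ZMod (q ^ m)) ^ j * b) → ∀ x ∈ P m, ⁅g, x⁆ ∈ P (m + j) := by
  classical
  have hN : (P (m + m)).Normal := hP.normal _
  have hPm : (P m).Normal := hP.normal _
  set π := QuotientGroup.mk' (P (m + m)) with hπ
  have hπs : Function.Surjective π := QuotientGroup.mk'_surjective _
  have hker : ∀ x : G, π x = 1 ↔ x ∈ P (m + m) := fun x => QuotientGroup.eq_one_iff x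
  let L : Subgroup (G ⧸ P (m + m)) := (P m).map π
  have hL : L.Normal := Normal.map hPm π hπs
  have hLc : ∀ a b : L, a * b = b * a := by
    rintro ⟨_, x, hx, rfl⟩ ⟨_, y, hy, rfl⟩
    apply Subtype.ext
    change π x * π y = π y * π x
    rw [← commutatorElement_eq_one_iff_mul_comm, ← map_commutatorElement, hker]
    exact hP.anti (by omega) (hP.comm m m (commutator_mem_commutator hx hy))
  let instL : CommGroup L := { (inferInstance : Group L) with mul_comm := hLc }
  let Ak : ℕ → AddSubgroup (Additive L) := fun k =>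
    Subgroup.toAddSubgroup (((P (m + k)).map π).subgroupOf L)
  have hAk : ∀ k (a : Additive L), a ∈ Ak k ↔ ((Additive.toMul a : L) : G ⧸ P (m + m)) ∈
      (P (m + k)).map π := fun k a => Iff.rfl
  have hmapmem : ∀ k, k ≤ m → ∀ x : G, π x ∈ (P (m + k)).map π ↔ x ∈ P (m + k) := by
    intro k hk x
    constructor
    · rintro ⟨y, hy, hyx⟩
      have h1 : y⁻¹ * x ∈ P (m + m) := by
        rw [← hker, map_mul, map_inv, hyx, inv_mul_cancel]
      have h2 := mul_mem hy (hP.anti (by omega : m + k ≤ m + m) h1)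
      simpa using h2
    · exact fun h => mem_map_of_mem π h
  have hcardA : ∀ k, k ≤ m → Nat.card ((P (m + k)).map π) = q ^ (d * (m - k)) := by
    intro k hk
    rw [hπ, card_map_mk, ← hP.rel' (m + k) (m - k)]
    congr 2
    omega
  have hcard0 : Nat.card (Additive L) = q ^ (d * m) := by
    have := hcardA 0 (by omega)
    rw [Nat.add_zero, Nat.sub_zero] at this
    exact this
  have hfinA : Finite (Additive L) := by
    apply Nat.finite_of_card_ne_zero
    rw [hcard0]
    exact (pow_pos hq.out.pos _).ne'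
  have h0 : Ak 0 = ⊤ := by
    rw [eq_top_iff]
    intro a _
    rw [hAk]
    exact (Additive.toMul a : L).2
  have hm' : Ak m = ⊥ := by
    rw [eq_bot_iff]
    intro a ha
    rw [hAk] at ha
    obtain ⟨x, hx, hxa⟩ := ha
    rw [AddSubgroup.mem_bot]
    have h1 : (Additive.toMul a : L) = 1 := by
      apply Subtype.ext
      rw [← hxa, (hker x).2 hx]
      rfl
    exact congrArg Additive.ofMul h1
  have hb : ∀ k, ∀ a ∈ Ak k, q • a ∈ Ak (k + 1) := by
    intro k a ha
    rw [hAk] at ha ⊢
    obtain ⟨x, hx, hxa⟩ := ha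
    refine ⟨x ^ q, hP.pow _ x hx, ?_⟩
    rw [map_pow, hxa]
    rfl
  have hc : ∀ k, k + 2 ≤ m → ∀ b ∈ Ak (k + 1), ∃ a ∈ Ak k, q • a - b ∈ Ak (k + 2) := by
    intro k hk b hb
    rw [hAk] at hb
    obtain ⟨y, hy, hyb⟩ := hb
    obtain ⟨x, hx, hxy⟩ := hP.surj (m + k) y hy
    let a : L := ⟨π x, mem_map_of_mem π (hP.anti (by omega) hx)⟩
    refine ⟨Additive.ofMul a, ?_, ?_⟩
    · rw [hAk]
      exact mem_map_of_mem π hx
    · rw [hAk]
      refine ⟨x ^ q * y⁻¹, hxy, ?_⟩
      rw [map_mul, map_inv, hyb, map_pow, sub_eq_add_neg]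
      rfl
  obtain ⟨x, hx⟩ := gens_mod (q := q) (d := d) (A := Additive L) (Ak 1)
    (fun a => hb 0 a (h0 ▸ AddSubgroup.mem_top a)) (by
      have h1 : Nat.card (Ak 1) * (Ak 1).index = Nat.card (Additive L) :=
        AddSubgroup.card_mul_index _
      have h2 : Nat.card (Ak 1) = q ^ (d * (m - 1)) := by
        rw [← hcardA 1 hm]
        have h3 : (P (m + 1)).map π ≤ L := Subgroup.map_mono (hP.anti (by omega))
        exact Nat.card_congr (Subgroup.subgroupOfEquivOfLe h3).toEquiv
      rw [h2, hcard0] at h1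
      have h4 : d * m = d * (m - 1) + d := by
        obtain ⟨k, rfl⟩ := Nat.exists_eq_add_of_le hm
        simp [mul_add, add_comm]
      rw [h4, pow_add] at h1
      exact Nat.eq_of_mul_eq_mul_left (pow_pos hq.out.pos _) h1)
  obtain ⟨inst, ⟨Φ⟩⟩ := homocyclic hq.out.one_lt Ak h0 hm' hb hc x hx hcard0
  -- the action
  let c : G →* MulAut L := MulAut.conjNormal.comp π
  have hcv : ∀ g (y : L), ((c g y : L) : G ⧸ P (m + m)) = π g * y * (π g)⁻¹ := fun g y => by
    change ((MulAut.conjNormal (π g) y : L) : G ⧸ P (m + m)) = _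
    exact MulAut.conjNormal_apply _ _
  let T : G → (Additive L →ₗ[ZMod (q ^ m)] Additive L) := fun g =>
    AddMonoidHom.toZModLinearMap (q ^ m) (MonoidHom.toAdditive (c g).toMonoidHom)
  have hT : ∀ g (y : L), T g (Additive.ofMul y) = Additive.ofMul (c g y) := fun g y => rfl
  have hT1 : T 1 = LinearMap.id := by
    apply LinearMap.ext
    intro a
    change T 1 (Additive.ofMul (Additive.toMul a)) = a
    rw [hT, map_one]
    rfl
  have hTm : ∀ g h, T (g * h) = T g ∘ₗ T h := by
    intro g h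
    apply LinearMap.ext
    intro a
    change T (g * h) (Additive.ofMul (Additive.toMul a)) =
      T g (T h (Additive.ofMul (Additive.toMul a)))
    rw [hT, hT, hT, map_mul]
    rfl
  let R : G → ((Fin d → ZMod (q ^ m)) →ₗ[ZMod (q ^ m)] (Fin d → ZMod (q ^ m))) := fun g =>
    Φ.symm.toLinearMap ∘ₗ T g ∘ₗ Φ.toLinearMap
  let ρ : G →* Matrix (Fin d) (Fin d) (ZMod (q ^ m)) :=
    { toFun := fun g => LinearMap.toMatrix' (R g)
      map_one' := by
        have : R 1 = LinearMap.id := by
          apply LinearMap.ext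
          intro v
          simp [R, hT1]
        rw [this, LinearMap.toMatrix'_id]
      map_mul' := by
        intro g h
        rw [← LinearMap.toMatrix'_comp]
        congr 1
        apply LinearMap.ext
        intro v
        simp [R, hTm] }
  refine ⟨ρ, ?_⟩
  intro g j hj hg x hx
  choose b hb' using hg
  let B : Matrix (Fin d) (Fin d) (ZMod (q ^ m)) := Matrix.of b
  have hρ : ρ g = 1 + (q : ZMod (q ^ m)) ^ j • B := by
    ext i k
    rw [hb' i k]
    simp [B]
  have hR : ∀ v, R g v = v + (q : ZMod (q ^ m)) ^ j • (Matrix.toLin' B v) := by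
    intro v
    have h1 : R g = Matrix.toLin' (ρ g) := (Matrix.toLin'_toMatrix' (R g)).symm
    rw [h1, hρ, map_add, map_smul, Matrix.toLin'_one]
    rfl
  set a : L := ⟨π x, mem_map_of_mem π hx⟩ with ha
  set v := Φ.symm (Additive.ofMul a) with hv
  have h2 : T g (Additive.ofMul a) = Additive.ofMul a + q ^ j • Φ (Matrix.toLin' B v) := by
    have h3 := congrArg Φ (hR v)
    have h4 : Φ (R g v) = T g (Additive.ofMul a) := by
      simp [R, hv]
    rw [h4, map_add, map_smul, hv, Φ.apply_symm_apply] at h3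
    rw [h3, hv]
    congr 1
    rw [← Nat.cast_pow, Nat.cast_smul_eq_nsmul]
  have hexp' : ∀ k, ∀ a : Additive L, q ^ k • a ∈ Ak k := by
    intro k
    induction k with
    | zero => intro a; rw [h0]; trivial
    | succ k ih =>
      intro a
      rw [pow_succ', mul_smul]
      exact hb k _ (ih a)
  have h5 : T g (Additive.ofMul a) - Additive.ofMul a ∈ Ak j := by
    rw [h2, add_sub_cancel_left]
    exact hexp' j _
  rw [hT, hAk] at h5
  have h6 : ((Additive.toMul (Additive.ofMul (c g a) - Additive.ofMul a) : L) :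
      G ⧸ P (m + m)) = π ⁅g, x⁆ := by
    rw [← ofMul_div, toMul_ofMul]
    change ((c g a : L) : G ⧸ P (m + m)) / (a : G ⧸ P (m + m)) = _
    rw [hcv, commutatorElement_def, map_mul, map_mul, map_mul, map_inv, map_inv, div_eq_mul_inv]
  rw [h6] at h5
  exact (hmapmem j hj _).1 h5

end Vale.Agent.P260.H795
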